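import Vale.Agent.Lib.P170.Op

/-!
# P170: binomial expansion of a mixture of two commuting averaging operators
-/

namespace Vale.Agent.P170

open Finset

variable {Ω : Type*} {ι κ : Type*} [Fintype ι] [Fintype κ]

/-- the averaging operator as a linear map -/
noncomputable def opL (A : ι → Set Ω) : Module.End ℝ (Set Ω → ℝ) where
  toFun := op A
  map_add' f g := op_add_fun A f g
  map_smul' c f := op_mul_left A c f

theorem opL_apply (A : ι → Set Ω) (f : Set Ω → ℝ) : opL A f = op A f := rfl

theorem opL_pow_apply (A : ι → Set Ω) (n : ℕ) (f : Set Ω → ℝ) : (opL A ^ n) f = opn A n f := by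
  rw [Module.End.pow_apply]
  rfl

theorem opL_commute (A : ι → Set Ω) (B : κ → Set Ω) : Commute (opL A) (opL B) := by
  refine LinearMap.ext fun f => ?_
  exact op_comm A B f

theorem mix_iterate (A : ι → Set Ω) (B : κ → Set Ω) (p : ℝ) (M : ℕ) (f : Set Ω → ℝ) (S : Set Ω) :
    ((fun g : Set Ω → ℝ => fun T => p * op A g T + (1 - p) * op B g T)^[M] f) S =
      ∑ j ∈ range (M + 1), (M.choose j : ℝ) * p ^ j * (1 - p) ^ (M - j) *
        opn A j (opn B (M - j) f) S := by
  have h1 : ((fun g : Set Ω → ℝ => fun T => p * op A g T + (1 - p) * op B g T)^[M] f) =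
      ((p • opL A + (1 - p) • opL B) ^ M) f := by
    rw [Module.End.pow_apply]
    rfl
  have h2 : Commute (p • opL A) ((1 - p) • opL B) :=
    ((opL_commute A B).smul_left p).smul_right (1 - p)
  rw [h1, h2.add_pow, LinearMap.sum_apply, Finset.sum_apply]
  refine Finset.sum_congr rfl fun j _ => ?_
  have h3 : ((p • opL A) ^ j * ((1 - p) • opL B) ^ (M - j) * ((M.choose j : ℕ) :
      Module.End ℝ (Set Ω → ℝ))) f =
      (M.choose j : ℝ) • p ^ j • (1 - p) ^ (M - j) • opn A j (opn B (M - j) f) := by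
    rw [smul_pow, smul_pow, Module.End.mul_apply, Module.End.mul_apply, Module.End.natCast_apply,
      LinearMap.smul_apply, LinearMap.smul_apply, map_nsmul, map_smul, map_nsmul,
      opL_pow_apply, opL_pow_apply, ← Nat.cast_smul_eq_nsmul ℝ]
    rw [smul_comm ((1 - p) ^ (M - j)) ((M.choose j : ℕ) : ℝ),
      smul_comm (p ^ j) ((M.choose j : ℕ) : ℝ)]
  rw [h3]
  simp only [Pi.smul_apply, smul_eq_mul]
  ring

theorem lkap_eq_sum (A : ι → Set Ω) (t : ℝ) (M : ℕ) (S : Set Ω) :
    lkap A t M S = ∑ j ∈ range (M + 1), (M.choose j : ℝ) * t ^ j * (1 - t) ^ (M - j) *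
        kap A j S := by
  have hB : ∀ g : Set Ω → ℝ, op (fun _ : Unit => (Set.univ : Set Ω)) g = g := by
    intro g
    funext T
    unfold op
    simp only [Set.inter_univ]
    exact avg_const (g T)
  have hBn : ∀ (n : ℕ) (g : Set Ω → ℝ), opn (fun _ : Unit => (Set.univ : Set Ω)) n g = g := by
    intro n g
    induction n with
    | zero => rfl
    | succ n ih => rw [opn_succ, ih, hB]
  have h1 : lz A t = fun g : Set Ω → ℝ => fun T => t * op A g T +
      (1 - t) * op (fun _ : Unit => (Set.univ : Set Ω)) g T := by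
    funext g T
    rw [hB]
    unfold lz
    ring
  unfold lkap
  rw [h1, mix_iterate]
  refine Finset.sum_congr rfl fun j _ => ?_
  rw [hBn]
  rfl

theorem binom_tail (M : ℕ) (p t : ℝ) (hp0 : 0 ≤ p) (hp1 : p ≤ 1) (ht : 0 < t) :
    1 - M / t ^ 2 ≤ ∑ j ∈ (range (M + 1)).filter (fun j : ℕ => |(j : ℝ) - M * p| ≤ t),
      (M.choose j : ℝ) * p ^ j * (1 - p) ^ (M - j) := by
  have hq : 0 ≤ 1 - p := by linarith
  have hb : ∀ j : ℕ, 0 ≤ (M.choose j : ℝ) * p ^ j * (1 - p) ^ (M - j) := fun j => by positivity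
  have hsum : ∑ j ∈ range (M + 1), (M.choose j : ℝ) * p ^ j * (1 - p) ^ (M - j) = 1 := by
    have h := congrArg (Polynomial.eval p) (bernsteinPolynomial.sum ℝ M)
    simpa [bernsteinPolynomial, Polynomial.eval_finsetSum] using h
  have hvar : ∑ j ∈ range (M + 1), (M * p - j) ^ 2 *
      ((M.choose j : ℝ) * p ^ j * (1 - p) ^ (M - j)) = M * p * (1 - p) := by
    have h := congrArg (Polynomial.eval p) (bernsteinPolynomial.variance ℝ M)
    simpa [bernsteinPolynomial, Polynomial.eval_finsetSum] using h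
  rw [← Finset.sum_filter_add_sum_filter_not (range (M + 1))
    (fun j : ℕ => |(j : ℝ) - M * p| ≤ t)] at hsum
  have htail : ∑ j ∈ (range (M + 1)).filter (fun j : ℕ => ¬ |(j : ℝ) - M * p| ≤ t),
      (M.choose j : ℝ) * p ^ j * (1 - p) ^ (M - j) ≤ M / t ^ 2 := by
    calc ∑ j ∈ (range (M + 1)).filter (fun j : ℕ => ¬ |(j : ℝ) - M * p| ≤ t),
          (M.choose j : ℝ) * p ^ j * (1 - p) ^ (M - j)
        ≤ ∑ j ∈ (range (M + 1)).filter (fun j : ℕ => ¬ |(j : ℝ) - M * p| ≤ t),
          (M * p - j) ^ 2 / t ^ 2 * ((M.choose j : ℝ) * p ^ j * (1 - p) ^ (M - j)) := by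
          refine Finset.sum_le_sum fun j hj => ?_
          have h1 := (Finset.mem_filter.1 hj).2
          have h2 : 1 ≤ (M * p - j) ^ 2 / t ^ 2 := by
            rw [one_le_div (by positivity), ← sq_abs (M * p - j), abs_sub_comm]
            have h3 := not_le.1 h1
            gcongr
          exact le_mul_of_one_le_left (hb j) h2
      _ ≤ ∑ j ∈ range (M + 1),
          (M * p - j) ^ 2 / t ^ 2 * ((M.choose j : ℝ) * p ^ j * (1 - p) ^ (M - j)) := by
          refine Finset.sum_le_sum_of_subset_of_nonneg (Finset.filter_subset _ _)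
            fun j _ _ => ?_
          have := hb j
          positivity
      _ = (M * p * (1 - p)) / t ^ 2 := by
          rw [← hvar, Finset.sum_div]
          refine Finset.sum_congr rfl fun j _ => ?_
          ring
      _ ≤ M / t ^ 2 := by
          gcongr
          have h3 : p * (1 - p) ≤ 1 := by nlinarith
          have h4 : (0 : ℝ) ≤ M := Nat.cast_nonneg M
          nlinarith
  linarith

end Vale.Agent.P170
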