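import Mathlib

/-!
# P170: abstract properties of the unsatisfiability probabilities

`δ n M` stands for the probability that `M` random clauses on `n` variables are unsatisfiable.
-/

namespace Vale.Agent.P170

open Finset

/-- abstract properties of the unsatisfiability probabilities -/
structure Good (k : ℕ) (δ : ℕ → ℕ → ℝ) : Prop where
  mono : ∀ n, Monotone (δ n)
  nonneg : ∀ n M, 0 ≤ δ n M
  le_one : ∀ n M, δ n M ≤ 1
  zero : ∀ n, 0 < n → δ n 0 = 0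
  paste : ∀ a b M : ℕ, 0 < a → 0 < b →
    ∑ j ∈ range (M + 1), (M.choose j : ℝ) * (a / (a + b) : ℝ) ^ j *
      (1 - a / (a + b) : ℝ) ^ (M - j) * ((1 - δ a j) * (1 - δ b (M - j))) ≤ 1 - δ (a + b) M
  restrict : ∀ m n M : ℕ, 0 < m → m ≤ n →
    ∑ j ∈ range (M + 1), (M.choose j : ℝ) * ((m / n : ℝ) ^ k) ^ j *
      (1 - (m / n : ℝ) ^ k) ^ (M - j) * δ m j ≤ δ n M
  window : ∀ C η : ℝ, 0 < C → 0 < η → ∃ B : ℝ, 0 < B ∧ ∀ n M₀ M₁ : ℕ, 0 < n → M₀ ≤ M₁ →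
    (M₁ : ℝ) ≤ C * n → η ≤ δ n M₀ → δ n M₁ ≤ 1 - η →
      (M₁ - M₀ : ℝ) ≤ B * (n : ℝ) ^ (1 - 1 / 64 : ℝ)

end Vale.Agent.P170
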