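import Vale.Agent.Lib.P170.Binomial
import Vale.Agent.Lib.P170.Good

/-!
# P170: pasting two sizes at the same level

`paste_level`: if `δ a ⌊y a⌋` and `δ b ⌊y b⌋` are at most `1 / 4` then so is `δ (a + b)` at a density
smaller than `y` by `B (a + b) ^ (-1 / 64)`.
-/

namespace Vale.Agent.P170

open Finset

/-- sums with weights concentrated on a set -/
theorem half_of_paste {M : ℕ} {p t D : ℝ} (hp0 : 0 ≤ p) (hp1 : p ≤ 1) (ht : 0 < t)
    (hMt : (M : ℝ) / t ^ 2 ≤ 1 / 9) (u v : ℕ → ℝ) (hu : ∀ j, u j ≤ 1) (hv : ∀ j, v j ≤ 1)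
    (hu' : ∀ j ≤ M, |(j : ℝ) - M * p| ≤ t → u j ≤ 1 / 4)
    (hv' : ∀ j ≤ M, |(j : ℝ) - M * p| ≤ t → v (M - j) ≤ 1 / 4)
    (hp : ∑ j ∈ range (M + 1), (M.choose j : ℝ) * p ^ j * (1 - p) ^ (M - j) *
      ((1 - u j) * (1 - v (M - j))) ≤ 1 - D) : D ≤ 1 / 2 := by
  have htail := binom_tail M p t hp0 hp1 ht
  have q1 : 0 ≤ 1 - p := by linarith
  have hterm : ∀ j ∈ (range (M + 1)).filter (fun j : ℕ => |(j : ℝ) - M * p| ≤ t),
      ((M.choose j : ℝ) * p ^ j * (1 - p) ^ (M - j)) * (9 / 16) ≤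
      (M.choose j : ℝ) * p ^ j * (1 - p) ^ (M - j) * ((1 - u j) * (1 - v (M - j))) := by
    intro j hj
    rw [mem_filter, mem_range] at hj
    obtain ⟨hjM, hjt⟩ := hj
    have hjM' : j ≤ M := by omega
    refine mul_le_mul_of_nonneg_left ?_ (by positivity)
    have h3 := hu' j hjM' hjt
    have h4 := hv' j hjM' hjt
    have h5 : (3 : ℝ) / 4 ≤ 1 - u j := by linarith
    have h6 : (3 : ℝ) / 4 ≤ 1 - v (M - j) := by linarith
    have h7 := mul_le_mul h5 h6 (by norm_num) (by linarith)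
    norm_num at h7 ⊢
    exact h7
  have hsum : (∑ j ∈ (range (M + 1)).filter (fun j : ℕ => |(j : ℝ) - M * p| ≤ t),
      ((M.choose j : ℝ) * p ^ j * (1 - p) ^ (M - j))) * (9 / 16) ≤ 1 - D := by
    refine le_trans ?_ hp
    rw [sum_mul]
    refine (sum_le_sum hterm).trans ?_
    refine sum_le_sum_of_subset_of_nonneg (filter_subset _ _) (fun j _ _ => ?_)
    have q2 : 0 ≤ 1 - u j := by linarith [hu j]
    have q3 : 0 ≤ 1 - v (M - j) := by linarith [hv (M - j)]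
    positivity
  linarith

/-- the level bound at half, for the density lowered by `B1 / √n` -/
theorem paste_half {k : ℕ} {δ : ℕ → ℕ → ℝ} (h : Good k δ) {C : ℝ} (hC : 0 < C)
    {a b : ℕ} {y : ℝ} (ha : 0 < a) (hab : a ≤ b) (hb2 : b ≤ 2 * a) (hyC : y ≤ C)
    (hda : δ a ⌊y * a⌋₊ ≤ 1 / 4) (hdb : δ b ⌊y * b⌋₊ ≤ 1 / 4) (M : ℕ)
    (hM1 : (M : ℝ) ≤ y * (a + b : ℕ) - 9 * (C + 1) * √((a + b : ℕ) : ℝ)) :
    δ (a + b) M ≤ 1 / 2 := by
  have hb : 0 < b := by omega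
  have haR : (0 : ℝ) < a := by exact_mod_cast ha
  have hbR : (0 : ℝ) < b := by exact_mod_cast hb
  have hp := h.paste a b M ha hb
  set n : ℝ := ((a + b : ℕ) : ℝ) with hn
  have hnab : n = a + b := by rw [hn]; push_cast; rfl
  have hn0 : 0 < n := by rw [hnab]; positivity
  have ha3 : n ≤ 3 * a := by
    have : (b : ℝ) ≤ 2 * a := by exact_mod_cast hb2
    linarith
  have hb3 : n ≤ 3 * b := by
    have : (a : ℝ) ≤ b := by exact_mod_cast hab
    linarith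
  have hs0 : 0 < √n := Real.sqrt_pos.mpr hn0
  have hss : √n * √n = n := Real.mul_self_sqrt hn0.le
  have hMC : (M : ℝ) ≤ C * n := by
    have e1 : y * n ≤ C * n := mul_le_mul_of_nonneg_right hyC hn0.le
    have e2 : 0 ≤ 9 * (C + 1) * √n := by positivity
    linarith
  have hpp : ((a : ℝ) / (a + b)) = a / n := by rw [hnab]
  set p : ℝ := (a : ℝ) / (a + b) with hpdef
  have hp0 : 0 ≤ p := by rw [hpdef]; positivity
  have hp1 : p ≤ 1 := by
    rw [hpdef]; exact div_le_one_of_le₀ (by linarith) (by positivity)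
  have hpa : 1 / 3 ≤ p := by
    rw [hpp, div_le_div_iff₀ (by norm_num) hn0]; linarith
  have hpb : 1 / 3 ≤ 1 - p := by
    have : 1 - p = b / n := by rw [hpp, hnab]; field_simp; ring
    rw [this, div_le_div_iff₀ (by norm_num) hn0]; linarith
  have hpn : p * n = a := by rw [hpp]; field_simp
  have hpn' : (1 - p) * n = b := by rw [sub_mul, hpn, one_mul, hnab]; ring
  have ht0 : 0 < 9 * (C + 1) * √n / 3 := by positivity
  refine half_of_paste hp0 hp1 ht0 ?_ (δ a) (δ b) (h.le_one a) (h.le_one b) ?_ ?_ hp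
  · rw [div_le_iff₀ (by positivity)]
    have e : (9 * (C + 1) * √n / 3) ^ 2 = 9 * (C + 1) ^ 2 * n := by
      rw [div_pow, mul_pow, pow_two (√n), hss]; ring
    rw [e]
    have e1 : C * n ≤ (C + 1) ^ 2 * n := by
      refine mul_le_mul_of_nonneg_right ?_ hn0.le
      nlinarith
    linarith
  · intro j _ hjt
    rw [abs_le] at hjt
    have e1 : (M : ℝ) * p ≤ (y * n - 9 * (C + 1) * √n) * p :=
      mul_le_mul_of_nonneg_right hM1 hp0
    have e2 : 9 * (C + 1) * √n * (1 / 3) ≤ 9 * (C + 1) * √n * p :=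
      mul_le_mul_of_nonneg_left hpa (by positivity)
    have e3 : y * a = y * n * p := by rw [← hpn]; ring
    have h1 : (j : ℝ) ≤ y * a := by
      rw [e3]
      have e4 := hjt.2
      linarith
    exact (h.mono a (Nat.le_floor h1)).trans hda
  · intro j hj hjt
    rw [abs_le] at hjt
    have e1 : (M : ℝ) * (1 - p) ≤ (y * n - 9 * (C + 1) * √n) * (1 - p) :=
      mul_le_mul_of_nonneg_right hM1 (by linarith)
    have e2 : 9 * (C + 1) * √n * (1 / 3) ≤ 9 * (C + 1) * √n * (1 - p) :=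
      mul_le_mul_of_nonneg_left hpb (by positivity)
    have e3 : y * b = y * n * (1 - p) := by rw [← hpn']; ring
    have h2 : ((M - j : ℕ) : ℝ) ≤ y * b := by
      rw [Nat.cast_sub hj, e3]
      have e4 := hjt.1
      linarith
    exact (h.mono b (Nat.le_floor h2)).trans hdb

theorem paste_level {k : ℕ} {δ : ℕ → ℕ → ℝ} (h : Good k δ) (C : ℝ) (hC : 0 < C) :
    ∃ B : ℝ, 0 < B ∧ ∀ (a b : ℕ) (y : ℝ), 0 < a → a ≤ b → b ≤ 2 * a → y ≤ C →
      δ a ⌊y * a⌋₊ ≤ 1 / 4 → δ b ⌊y * b⌋₊ ≤ 1 / 4 →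
      δ (a + b) ⌊(y - B * ((a + b : ℕ) : ℝ) ^ (-(1 / 64) : ℝ)) * (a + b : ℕ)⌋₊ ≤ 1 / 4 := by
  obtain ⟨Bw, hBw, hwin⟩ := h.window C (1 / 4) hC (by norm_num)
  refine ⟨9 * (C + 1) + Bw + 2, by positivity, ?_⟩
  intro a b y ha hab hb2 hyC hda hdb
  have hph := fun M => paste_half h hC ha hab hb2 hyC hda hdb M
  have hN0 : 0 < a + b := by omega
  have hwin' := hwin (a + b)
  have hz := h.zero (a + b) hN0
  have hcast : (1 : ℝ) ≤ ((a + b : ℕ) : ℝ) := by exact_mod_cast hN0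
  generalize a + b = N at *
  have hn0 : (0 : ℝ) < N := by linarith
  set B1 : ℝ := 9 * (C + 1) with hB1
  have hB10 : 0 < B1 := by rw [hB1]; positivity
  -- powers of `N`
  set P : ℝ := (N : ℝ) ^ (-(1 / 64) : ℝ) with hP
  have hP0 : 0 < P := Real.rpow_pos_of_pos hn0 _
  have hPn : P * N = (N : ℝ) ^ (1 - 1 / 64 : ℝ) := by
    rw [hP, ← Real.rpow_add_one hn0.ne']; norm_num
  have hsq : √(N : ℝ) ≤ P * N := by
    rw [hPn, Real.sqrt_eq_rpow]
    exact Real.rpow_le_rpow_of_exponent_le hcast (by norm_num)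
  have hone : (1 : ℝ) ≤ P * N := by
    rw [hPn]; exact Real.one_le_rpow hcast (by norm_num)
  rw [← hPn] at hwin'
  have eB : (y - (B1 + Bw + 2) * P) * N = y * N - B1 * (P * N) - Bw * (P * N) - 2 * (P * N) := by
    ring
  rw [eB]
  have f1 : B1 * √(N : ℝ) ≤ B1 * (P * N) := mul_le_mul_of_nonneg_left hsq hB10.le
  have f2 : 0 < Bw * (P * N) := by positivity
  by_cases hy : y * N - B1 * (P * N) - Bw * (P * N) - 2 * (P * N) ≤ 0
  · rw [Nat.floor_of_nonpos hy, hz]; norm_num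
  push Not at hy
  have hyM : 0 ≤ y * N - B1 * √(N : ℝ) := by linarith
  have hM1 : ((⌊y * N - B1 * √(N : ℝ)⌋₊ : ℕ) : ℝ) ≤ y * N - B1 * √(N : ℝ) := Nat.floor_le hyM
  have hM2 : y * N - B1 * √(N : ℝ) < (⌊y * N - B1 * √(N : ℝ)⌋₊ : ℕ) + 1 := Nat.lt_floor_add_one _
  have hhalf := hph _ hM1
  have hM'1 := Nat.floor_le hy.le
  have hle : ⌊y * N - B1 * (P * N) - Bw * (P * N) - 2 * (P * N)⌋₊ ≤ ⌊y * N - B1 * √(N : ℝ)⌋₊ :=
    Nat.floor_le_floor (by linarith)
  generalize ⌊y * N - B1 * (P * N) - Bw * (P * N) - 2 * (P * N)⌋₊ = M' at *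
  generalize ⌊y * N - B1 * √(N : ℝ)⌋₊ = M at *
  by_contra hcon
  push Not at hcon
  have hMC : (M : ℝ) ≤ C * N := by
    have e1 : y * N ≤ C * N := mul_le_mul_of_nonneg_right hyC hn0.le
    have e2 : 0 ≤ B1 * √(N : ℝ) := by positivity
    linarith
  have := hwin' M' M hN0 hle hMC hcon.le (by linarith)
  linarith

end Vale.Agent.P170
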