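import Vale.Agent.Lib.P170.MultiplesAux
import Vale.Agent.Lib.P170.PasteLevel

/-!
# P170: multiples of a given size
-/

namespace Vale.Agent.P170

theorem multiples {k : ℕ} {δ : ℕ → ℕ → ℝ} (h : Good k δ) (C : ℝ) (hC : 0 < C) :
    ∃ K : ℝ, 0 < K ∧ ∀ (n t : ℕ) (y : ℝ), 0 < n → 0 < t → y ≤ C → δ n ⌊y * n⌋₊ ≤ 1 / 4 →
      δ (t * n) ⌊(y - K * (n : ℝ) ^ (-(1 / 64) : ℝ)) * (t * n : ℕ)⌋₊ ≤ 1 / 4 :=
  multiples_aux h C (paste_level h C hC)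

end Vale.Agent.P170
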