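import Vale.Agent.Lib.P170.Good
import Vale.Agent.Lib.P170.Binomial
import Vale.Agent.Lib.P170.Multiples

/-!
# P170: from one size to all large sizes
-/

namespace Vale.Agent.P170

open Filter Topology Finset

/-- one step: from a level at a multiple `T` of `n` slightly larger than `N` to the size `N` -/
theorem all_sizes_step {k : ℕ} {δ : ℕ → ℕ → ℝ} (h : Good k δ) {N T M M' : ℕ} {t : ℝ}
    (hN : 0 < N) (hNT : N ≤ T) (ht : 0 < t) (hM : δ T M ≤ 1 / 4)
    (hM' : (M' : ℝ) ≤ M * ((N / T : ℝ) ^ k) - t) (hMt : (M : ℝ) / t ^ 2 ≤ 1 / 2) :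
    δ N M' ≤ 1 / 2 := by
  have hT : 0 < T := hN.trans_le hNT
  have hN' : (0 : ℝ) < N := by exact_mod_cast hN
  have hT' : (0 : ℝ) < T := by exact_mod_cast hT
  set p : ℝ := (N / T : ℝ) ^ k with hp
  have hp0 : 0 ≤ p := by positivity
  have hp1 : p ≤ 1 := by
    refine pow_le_one₀ (by positivity) ?_
    rw [div_le_one hT']
    exact_mod_cast hNT
  have hq : 0 ≤ 1 - p := by linarith
  have h1 := h.restrict N T M hN hNT
  rw [← hp] at h1
  have h2 := binom_tail M p t hp0 hp1 ht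
  have h3 : (1 / 2 : ℝ) ≤ ∑ j ∈ (range (M + 1)).filter (fun j : ℕ => |(j : ℝ) - M * p| ≤ t),
      (M.choose j : ℝ) * p ^ j * (1 - p) ^ (M - j) := by linarith
  have h4 : (∑ j ∈ (range (M + 1)).filter (fun j : ℕ => |(j : ℝ) - M * p| ≤ t),
      (M.choose j : ℝ) * p ^ j * (1 - p) ^ (M - j)) * δ N M' ≤
      ∑ j ∈ range (M + 1), (M.choose j : ℝ) * p ^ j * (1 - p) ^ (M - j) * δ N j := by
    rw [Finset.sum_mul]
    refine (Finset.sum_le_sum fun j hj => ?_).trans
      (Finset.sum_le_sum_of_subset_of_nonneg (Finset.filter_subset _ _) fun j _ _ => ?_)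
    · refine mul_le_mul_of_nonneg_left (h.mono N ?_) (by positivity)
      have h5 := (Finset.mem_filter.1 hj).2
      have h6 := (abs_le.1 h5).1
      have : (M' : ℝ) ≤ j := by linarith
      exact_mod_cast this
    · have := h.nonneg N j
      positivity
  have h7 : 1 / 2 * δ N M' ≤ 1 / 4 :=
    (mul_le_mul_of_nonneg_right h3 (h.nonneg N M')).trans (h4.trans (h1.trans hM))
  linarith

/-- density levels pass from one size to all large sizes -/
theorem all_sizes {k : ℕ} {δ : ℕ → ℕ → ℝ} (h : Good k δ) (C : ℝ) (hC : 0 < C) :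
    ∃ K : ℝ, 0 < K ∧ ∀ (n : ℕ) (y ε : ℝ), 0 < n → y ≤ C → 0 < ε → δ n ⌊y * n⌋₊ ≤ 1 / 4 →
      ∀ᶠ N : ℕ in atTop, δ N ⌊(y - K * (n : ℝ) ^ (-(1 / 64) : ℝ) - ε) * N⌋₊ ≤ 1 / 4 := by
  obtain ⟨K, hK, hmul⟩ := multiples h C hC
  refine ⟨K, hK, fun n y ε hn hy hε hyn => ?_⟩
  have hmul' := fun t ht => hmul n t y hn ht hy hyn
  have hz1 : y - K * (n : ℝ) ^ (-(1 / 64) : ℝ) ≤ C := by
    have : 0 ≤ K * (n : ℝ) ^ (-(1 / 64) : ℝ) := by positivity
    linarith
  generalize y - K * (n : ℝ) ^ (-(1 / 64) : ℝ) = z at hmul' hz1 ⊢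
  have hn' : (0 : ℝ) < n := by exact_mod_cast hn
  rcases le_or_gt z ε with hze | hze
  · filter_upwards [eventually_gt_atTop 0] with N hN
    have h0 : ⌊(z - ε) * N⌋₊ = 0 :=
      Nat.floor_of_nonpos (mul_nonpos_of_nonpos_of_nonneg (by linarith) (Nat.cast_nonneg N))
    rw [h0, h.zero N hN]
    norm_num
  · have hz : 0 < z := hε.trans hze
    obtain ⟨B, hB, hwin⟩ := h.window C (1 / 4) hC (by norm_num)
    -- the limits needed
    have hcast : Tendsto (fun N : ℕ => (N : ℝ)) atTop atTop := tendsto_natCast_atTop_atTop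
    have hlim1 : Tendsto (fun N : ℕ => z * (1 - ((N : ℝ) / (N + n)) ^ k)) atTop (𝓝 0) := by
      have h1 : Tendsto (fun N : ℕ => (N : ℝ) / (N + n)) atTop (𝓝 1) := by
        exact_mod_cast tendsto_natCast_div_add_atTop (n : ℝ)
      have h2 := ((h1.pow k).const_sub 1).const_mul z
      simpa using h2
    have hlim2 : Tendsto (fun N : ℕ => z * ((N : ℝ) + n) / (ε * N / 4) ^ 2) atTop (𝓝 0) := by
      have h1 : Tendsto (fun N : ℕ => ((N : ℝ))⁻¹) atTop (𝓝 0) := tendsto_inv_atTop_zero.comp hcast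
      have h2 : Tendsto (fun N : ℕ => z * 16 / ε ^ 2 * ((N : ℝ)⁻¹ + n * ((N : ℝ)⁻¹ * (N : ℝ)⁻¹)))
          atTop (𝓝 (z * 16 / ε ^ 2 * (0 + n * (0 * 0)))) :=
        (h1.add ((h1.mul h1).const_mul _)).const_mul _
      simp only [mul_zero, add_zero] at h2
      refine h2.congr' ?_
      filter_upwards [eventually_gt_atTop 0] with N hN
      have hN' : (N : ℝ) ≠ 0 := by exact_mod_cast hN.ne'
      field_simp
      ring
    have hlim3 : Tendsto (fun N : ℕ => B * (N : ℝ) ^ (-(1 / 64) : ℝ)) atTop (𝓝 0) := by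
      have h1 := (tendsto_rpow_neg_atTop (y := 1 / 64) (by norm_num)).comp hcast
      have h2 := h1.const_mul B
      simpa using h2
    filter_upwards [eventually_gt_atTop 0, hlim1.eventually (gt_mem_nhds (show 0 < ε / 8 by positivity)),
      hlim2.eventually (gt_mem_nhds (show (0 : ℝ) < 1 / 2 by norm_num)),
      hlim3.eventually (gt_mem_nhds (show 0 < ε / 4 by positivity)),
      hcast.eventually (eventually_gt_atTop (8 / ε))] with N hN e1 e2 e3 e4
    have hN' : (0 : ℝ) < N := by exact_mod_cast hN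
    have e4' : 1 < ε * N / 8 := by
      rw [div_lt_iff₀ hε] at e4
      linarith
    set T : ℕ := (N / n + 1) * n with hTdef
    have hNT : N ≤ T := by
      have := Nat.lt_div_mul_add (a := N) hn
      rw [hTdef, add_mul, one_mul]
      exact this.le
    have hTN : T ≤ N + n := by
      rw [hTdef, add_mul, one_mul]
      exact Nat.add_le_add_right (Nat.div_mul_le_self N n) n
    have hNT' : (N : ℝ) ≤ T := by exact_mod_cast hNT
    have hTN' : (T : ℝ) ≤ N + n := by exact_mod_cast hTN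
    have hT' : (0 : ℝ) < T := hN'.trans_le hNT'
    have hδT : δ T ⌊z * T⌋₊ ≤ 1 / 4 := hmul' (N / n + 1) (Nat.succ_pos _)
    have hpq : ((N : ℝ) / (N + n)) ^ k ≤ ((N : ℝ) / T) ^ k := by
      refine pow_le_pow_left₀ (by positivity) ?_ k
      exact div_le_div_of_nonneg_left hN'.le hT' hTN'
    have hp1 : ((N : ℝ) / T) ^ k ≤ 1 :=
      pow_le_one₀ (by positivity) ((div_le_one hT').2 hNT')
    have hp0 : 0 ≤ ((N : ℝ) / T) ^ k := by positivity
    set p : ℝ := ((N : ℝ) / T) ^ k with hp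
    have hMle : ((⌊z * T⌋₊ : ℕ) : ℝ) ≤ z * T := Nat.floor_le (by positivity)
    have hMge : z * T - 1 < ((⌊z * T⌋₊ : ℕ) : ℝ) := Nat.sub_one_lt_floor _
    have hstep : δ N ⌊(z - ε / 2) * N⌋₊ ≤ 1 / 2 := by
      refine all_sizes_step (M := ⌊z * T⌋₊) (t := ε * N / 4) h hN hNT (by positivity) hδT ?_ ?_
      · have h1 : ((⌊(z - ε / 2) * N⌋₊ : ℕ) : ℝ) ≤ (z - ε / 2) * N :=
          Nat.floor_le (mul_nonneg (by linarith) hN'.le)
        refine h1.trans ?_
        rw [← hp]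
        have h2 : (z * T - 1) * p ≤ ((⌊z * T⌋₊ : ℕ) : ℝ) * p :=
          mul_le_mul_of_nonneg_right hMge.le hp0
        have h3 : z * N * p ≤ z * T * p := by gcongr
        have h4 : z * (1 - p) ≤ ε / 8 := by
          refine le_trans ?_ e1.le
          gcongr
        have h5 : z * (1 - p) * N ≤ ε / 8 * N := by gcongr
        nlinarith
      · refine le_trans ?_ e2.le
        gcongr
        exact hMle.trans (by gcongr)
    by_contra hcon
    push Not at hcon
    have hle : ⌊(z - ε) * N⌋₊ ≤ ⌊(z - ε / 2) * N⌋₊ := by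
      refine Nat.floor_le_floor ?_
      have : (z - ε) ≤ (z - ε / 2) := by linarith
      gcongr
    have h1 : ((⌊(z - ε / 2) * N⌋₊ : ℕ) : ℝ) ≤ (z - ε / 2) * N :=
      Nat.floor_le (mul_nonneg (by linarith) hN'.le)
    have h1' : (z - ε / 2) * N - 1 < ((⌊(z - ε / 2) * N⌋₊ : ℕ) : ℝ) := Nat.sub_one_lt_floor _
    have h2 : ((⌊(z - ε) * N⌋₊ : ℕ) : ℝ) ≤ (z - ε) * N :=
      Nat.floor_le (mul_nonneg (by linarith) hN'.le)
    have h3 := hwin N _ _ hN hle (h1.trans (by gcongr; linarith)) hcon.le (by linarith)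
    have h4 : (N : ℝ) ^ (1 - 1 / 64 : ℝ) = N * (N : ℝ) ^ (-(1 / 64) : ℝ) := by
      rw [sub_eq_add_neg, Real.rpow_add hN', Real.rpow_one]
    rw [h4] at h3
    have h5 : B * (N : ℝ) ^ (-(1 / 64) : ℝ) * N ≤ ε / 4 * N := by gcongr
    nlinarith

end Vale.Agent.P170
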