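import Mathlib

/-!
# P170: definitions for the final statement
-/

namespace Vale.Agent.P170

open Filter Topology

/-- A proper `k`-clause on the Boolean variables `x_0, …, x_{n-1}`: a set of exactly `k` literals,
a literal being a pair (variable, sign), no two of them on the same variable.  There are
`2 ^ k * n.choose k` of them. -/
def ProperClause (k n : ℕ) : Type :=
  {D : Finset (Fin n × Bool) // D.card = k ∧ Set.InjOn Prod.fst (D : Set (Fin n × Bool))}

/-- The assignment `σ` satisfies the clause `D` if it makes one of its literals true. -/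
def Satisfies {n : ℕ} (σ : Fin n → Bool) (D : Finset (Fin n × Bool)) : Prop :=
  ∃ l ∈ D, σ l.1 = l.2

/-- The formula `F 0 ∧ … ∧ F (m-1)` is satisfiable. -/
def Satisfiable {k n m : ℕ} (F : Fin m → ProperClause k n) : Prop :=
  ∃ σ : Fin n → Bool, ∀ i, Satisfies σ (F i).1

/-- `satProb k n m` is the probability that the conjunction of `m` independent uniformly random
proper `k`-clauses on `n` variables is satisfiable: the number of satisfiable sequences
of `m` clauses divided by the number of all sequences. -/
noncomputable def satProb (k n m : ℕ) : ℝ :=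
  (Nat.card {F : Fin m → ProperClause k n // Satisfiable F} : ℝ) /
    (Nat.card (ProperClause k n) : ℝ) ^ m

/-- Random `k`-SAT has the limiting threshold `α ∈ (0, ∞)`. -/
def HasLimitingThreshold (k : ℕ) (α : ℝ) : Prop :=
  0 < α ∧
  (∀ c : ℝ, 0 ≤ c → c < α →
    Tendsto (fun n : ℕ => satProb k n ⌊c * n⌋₊) atTop (𝓝 1)) ∧
  (∀ c : ℝ, α < c →
    Tendsto (fun n : ℕ => satProb k n ⌊c * n⌋₊) atTop (𝓝 0))

end Vale.Agent.P170
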