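import Vale.Agent.Lib.P170.Op

/-!
# P170: first moment upper bound for the satisfiability probability
-/

namespace Vale.Agent.P170

open Finset Filter Topology

section FirstMoment

variable {Ω : Type*} [Fintype Ω] {ι : Type*} [Fintype ι]

/-- probability that a random constraint is satisfied by `σ` -/
noncomputable def psat (A : ι → Set Ω) (σ : Ω) : ℝ := by
  classical exact avg fun i => if σ ∈ A i then 1 else 0

theorem one_sub_kap_le_sum [Nonempty ι] (A : ι → Set Ω) (M : ℕ) (S : Set Ω) :
    1 - kap A M S ≤ ∑ σ : Ω, S.indicator (fun σ => psat A σ ^ M) σ := by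
  classical
  induction M generalizing S with
  | zero =>
    rw [kap_zero]
    rcases S.eq_empty_or_nonempty with rfl | ⟨τ, hτ⟩
    · rw [ind_empty]; simp
    · rw [ind_of_nonempty ⟨τ, hτ⟩]
      have h1 : S.indicator (fun σ => psat A σ ^ 0) τ ≤
          ∑ σ : Ω, S.indicator (fun σ => psat A σ ^ 0) σ := by
        apply Finset.single_le_sum (f := fun σ => S.indicator (fun σ => psat A σ ^ 0) σ)
        · intro σ _
          apply Set.indicator_nonneg
          intro x _
          simp
        · exact Finset.mem_univ τ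
      rw [Set.indicator_of_mem hτ, pow_zero] at h1
      linarith
  | succ M ih =>
    have e1 : 1 - kap A (M + 1) S = avg fun i => 1 - kap A M (S ∩ A i) := by
      rw [kap_succ, avg_sub, avg_const]
    rw [e1]
    calc avg (fun i => 1 - kap A M (S ∩ A i))
        ≤ avg (fun i => ∑ σ : Ω, (S ∩ A i).indicator (fun σ => psat A σ ^ M) σ) :=
          avg_mono fun i => ih (S ∩ A i)
      _ = ∑ σ : Ω, avg (fun i => (S ∩ A i).indicator (fun σ => psat A σ ^ M) σ) :=
          avg_sum Finset.univ (fun σ i => (S ∩ A i).indicator (fun σ => psat A σ ^ M) σ)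
      _ = ∑ σ : Ω, S.indicator (fun σ => psat A σ ^ (M + 1)) σ := by
          apply Finset.sum_congr rfl
          intro σ _
          by_cases hσ : σ ∈ S
          · rw [Set.indicator_of_mem hσ, pow_succ]
            have : (fun i => (S ∩ A i).indicator (fun σ => psat A σ ^ M) σ) =
                fun i => psat A σ ^ M * (if σ ∈ A i then (1:ℝ) else 0) := by
              funext i
              by_cases h : σ ∈ A i
              · rw [Set.indicator_of_mem (Set.mem_inter hσ h), if_pos h, mul_one]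
              · rw [Set.indicator_of_notMem (fun h' => h h'.2), if_neg h, mul_zero]
            rw [this, avg_mul_left]
            congr 1
          · rw [Set.indicator_of_notMem hσ]
            have : (fun i => (S ∩ A i).indicator (fun σ => psat A σ ^ M) σ) =
                fun _ : ι => (0:ℝ) := by
              funext i
              rw [Set.indicator_of_notMem (fun h' => hσ h'.1)]
            rw [this, avg_const]

end FirstMoment

theorem psat_cl {n : ℕ} (hn : 0 < n) (k : ℕ) (σ : Fin n → Bool) :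
    psat (cl (Fin n) k) σ = 1 - (1 / 2 : ℝ) ^ k := by
  classical
  have : Nonempty (Fin n) := ⟨⟨0, hn⟩⟩
  unfold psat
  have h1 : (fun D : Fin k → Fin n × Bool => if σ ∈ cl (Fin n) k D then (1:ℝ) else 0) =
      fun D => 1 - (if ∀ i, σ (D i).1 ≠ (D i).2 then (1:ℝ) else 0) := by
    funext D
    by_cases h : ∀ i, σ (D i).1 ≠ (D i).2
    · rw [if_pos h, if_neg]
      · norm_num
      · rintro ⟨i, hi⟩
        exact h i hi
    · rw [if_neg h, if_pos]
      · norm_num
      · push Not at h
        exact h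
  rw [h1, avg_sub, avg_const]
  congr 1
  unfold avg
  have hT : (Finset.univ.filter fun l : Fin n × Bool => σ l.1 ≠ l.2).card = n := by
    have : (Finset.univ.filter fun l : Fin n × Bool => σ l.1 ≠ l.2) =
        Finset.univ.image (fun v : Fin n => (v, !(σ v))) := by
      ext ⟨v, b⟩
      simp only [Finset.mem_filter, Finset.mem_univ, true_and, Finset.mem_image, Prod.mk.injEq]
      constructor
      · intro h
        refine ⟨v, rfl, ?_⟩
        cases hv : σ v <;> cases b <;> simp_all
      · rintro ⟨w, rfl, rfl⟩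
        cases σ w <;> simp
    rw [this, Finset.card_image_of_injective]
    · simp
    · intro a b hab
      exact (Prod.mk.inj hab).1
  have hcount : (∑ D : Fin k → Fin n × Bool, if ∀ i, σ (D i).1 ≠ (D i).2 then (1:ℝ) else 0) =
      (n : ℝ) ^ k := by
    rw [← Finset.sum_filter]
    simp only [Finset.sum_const, nsmul_eq_mul, mul_one]
    have : (Finset.univ.filter fun D : Fin k → Fin n × Bool => ∀ i, σ (D i).1 ≠ (D i).2) =
        Fintype.piFinset fun _ : Fin k =>
          (Finset.univ.filter fun l : Fin n × Bool => σ l.1 ≠ l.2) := by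
      ext D
      simp
    rw [this, Fintype.card_piFinset]
    simp only [hT]
    simp
  rw [hcount]
  have hn' : (n : ℝ) ≠ 0 := by exact_mod_cast hn.ne'
  simp only [Fintype.card_fun, Fintype.card_prod, Fintype.card_fin, Fintype.card_bool]
  push_cast
  rw [← div_pow]
  congr 1
  field_simp

theorem one_sub_del_le {n : ℕ} (hn : 0 < n) (k M : ℕ) :
    1 - del k n M ≤ 2 ^ n * (1 - (1 / 2 : ℝ) ^ k) ^ M := by
  classical
  have : Nonempty (Fin n) := ⟨⟨0, hn⟩⟩
  have h := one_sub_kap_le_sum (cl (Fin n) k) M Set.univ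
  unfold del
  refine h.trans (le_of_eq ?_)
  simp only [Set.indicator_univ, psat_cl hn]
  simp

/-! Module FM (FirstMoment.lean) -/
theorem del_firstMoment (k : ℕ) (c : ℝ) (hc : (2 : ℝ) ^ k ≤ c) :
    Tendsto (fun n : ℕ => del k n ⌊c * n⌋₊) atTop (𝓝 1) := by
  have hlim : Tendsto (fun n : ℕ => 1 - Real.exp 1 * (2 / Real.exp 1) ^ n) atTop (𝓝 1) := by
    have h0 : Tendsto (fun n : ℕ => (2 / Real.exp 1) ^ n) atTop (𝓝 0) := by
      apply tendsto_pow_atTop_nhds_zero_of_lt_one
      · positivity
      · rw [div_lt_one (Real.exp_pos 1)]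
        have := Real.exp_one_gt_d9
        linarith
    have := (h0.const_mul (Real.exp 1)).const_sub 1
    simpa using this
  refine tendsto_of_tendsto_of_tendsto_of_le_of_le' hlim tendsto_const_nhds ?_ ?_
  · filter_upwards [eventually_gt_atTop 0] with n hn
    have h := one_sub_del_le hn k ⌊c * n⌋₊
    have hp : (0:ℝ) < 2 ^ k := by positivity
    have hn1 : (0:ℝ) ≤ n := Nat.cast_nonneg n
    have hM : (2:ℝ) ^ k * n - 1 ≤ (⌊c * n⌋₊ : ℝ) := by
      have h1 := Nat.lt_floor_add_one (c * (n:ℝ))
      have h2 : (2:ℝ) ^ k * n ≤ c * n := by gcongr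
      linarith
    have hb : (1 - (1 / 2 : ℝ) ^ k) ≤ Real.exp (-(1 / 2 : ℝ) ^ k) := by
      have := Real.add_one_le_exp (-(1 / 2 : ℝ) ^ k)
      linarith
    have hb0 : 0 ≤ (1 - (1 / 2 : ℝ) ^ k) := by
      have : (1 / 2 : ℝ) ^ k ≤ 1 := pow_le_one₀ (by norm_num) (by norm_num)
      linarith
    have h3 : (1 - (1 / 2 : ℝ) ^ k) ^ ⌊c * n⌋₊ ≤ Real.exp 1 * Real.exp (-(n:ℝ)) := by
      calc (1 - (1 / 2 : ℝ) ^ k) ^ ⌊c * n⌋₊ ≤ Real.exp (-(1 / 2 : ℝ) ^ k) ^ ⌊c * n⌋₊ :=
            pow_le_pow_left₀ hb0 hb _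
        _ = Real.exp ((⌊c * n⌋₊ : ℝ) * (-(1 / 2 : ℝ) ^ k)) := by rw [← Real.exp_nat_mul]
        _ ≤ Real.exp (1 + -(n:ℝ)) := by
            apply Real.exp_le_exp.2
            have hq : (0:ℝ) < (1 / 2 : ℝ) ^ k := by positivity
            have hq1 : (1 / 2 : ℝ) ^ k ≤ 1 := pow_le_one₀ (by norm_num) (by norm_num)
            have hqq : (2:ℝ) ^ k * (1 / 2 : ℝ) ^ k = 1 := by
              rw [← mul_pow]; norm_num
            have h4 := mul_le_mul_of_nonneg_right hM hq.le
            have h5 : ((2:ℝ) ^ k * n - 1) * (1 / 2 : ℝ) ^ k = n - (1 / 2 : ℝ) ^ k := by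
              rw [sub_mul, mul_right_comm, hqq]; ring
            rw [h5] at h4
            linarith
        _ = Real.exp 1 * Real.exp (-(n:ℝ)) := Real.exp_add _ _
    have h6 : (2:ℝ) ^ n * (1 - (1 / 2 : ℝ) ^ k) ^ ⌊c * n⌋₊ ≤
        Real.exp 1 * (2 / Real.exp 1) ^ n := by
      calc (2:ℝ) ^ n * (1 - (1 / 2 : ℝ) ^ k) ^ ⌊c * n⌋₊
          ≤ (2:ℝ) ^ n * (Real.exp 1 * Real.exp (-(n:ℝ))) := by gcongr
        _ = Real.exp 1 * (2 / Real.exp 1) ^ n := by
            rw [div_pow, ← Real.exp_nat_mul, mul_one, Real.exp_neg]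
            ring
    linarith
  · filter_upwards [eventually_gt_atTop 0] with n hn
    have : Nonempty (Fin n) := ⟨⟨0, hn⟩⟩
    exact kap_le_one _ _ _

end Vale.Agent.P170
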