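import Vale.Agent.Lib.P170.Seq

/-!
# P170: sparse random formulas are satisfiable (Hall's theorem and a union bound)
-/

namespace Vale.Agent.P170

open Finset Filter Topology

namespace Hall

/-- independence: the average of a product over all functions -/
theorem avg_pi {α ι : Type*} [Fintype α] [DecidableEq α] [Fintype ι] (g : α → ι → ℝ) :
    avg (fun F : α → ι => ∏ a, g a (F a)) = ∏ a, avg (g a) := by
  unfold avg
  rw [Finset.prod_div_distrib, Finset.prod_univ_sum, Fintype.piFinset_univ, Finset.prod_const,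
    Fintype.card_fun, Finset.card_univ]
  push_cast
  rfl

theorem avg_mem {n : ℕ} (W : Finset (Fin n)) :
    avg (fun l : Fin n × Bool => if l.1 ∈ W then (1 : ℝ) else 0) = (W.card : ℝ) / n := by
  rw [avg_prod]
  have h : (fun i : Fin n => avg fun j : Bool => if (i, j).1 ∈ W then (1 : ℝ) else 0) =
      fun i => if i ∈ W then (1 : ℝ) else 0 := by
    funext i
    exact avg_const (ι := Bool) (if i ∈ W then (1 : ℝ) else 0)
  rw [h]
  unfold avg
  rw [Fintype.card_fin, Finset.sum_ite_mem, Finset.univ_inter]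
  simp

theorem avg_clause_mem {n k : ℕ} (W : Finset (Fin n)) :
    avg (fun D : Fin k → Fin n × Bool => ∏ j, if (D j).1 ∈ W then (1 : ℝ) else 0) =
      ((W.card : ℝ) / n) ^ k := by
  rw [avg_pi (fun _ : Fin k => fun l : Fin n × Bool => if l.1 ∈ W then (1 : ℝ) else 0)]
  simp only [avg_mem, Finset.prod_const, Finset.card_univ, Fintype.card_fin]

theorem avg_formula_mem {n k M : ℕ} [Nonempty (Fin k → Fin n × Bool)] (A : Finset (Fin M))
    (W : Finset (Fin n)) :
    avg (fun F : Fin M → Fin k → Fin n × Bool =>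
      ∏ i, if i ∈ A then (∏ j, if (F i j).1 ∈ W then (1 : ℝ) else 0) else 1) =
      (((W.card : ℝ) / n) ^ k) ^ A.card := by
  rw [avg_pi (fun (i : Fin M) (D : Fin k → Fin n × Bool) =>
    if i ∈ A then (∏ j, if (D j).1 ∈ W then (1 : ℝ) else 0) else 1)]
  have h : ∀ i : Fin M, avg (fun D : Fin k → Fin n × Bool =>
      if i ∈ A then (∏ j, if (D j).1 ∈ W then (1 : ℝ) else 0) else 1) =
      if i ∈ A then ((W.card : ℝ) / n) ^ k else 1 := by
    intro i
    split_ifs with hi
    · exact avg_clause_mem W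
    · exact avg_const 1
  simp only [h]
  rw [Finset.prod_ite_mem, Finset.univ_inter, Finset.prod_const]

/-- a formula whose clause-variable graph has a matching covering the clauses is satisfiable -/
theorem exists_sat {n k M : ℕ} (F : Fin M → Fin k → Fin n × Bool)
    (hF : ∀ A : Finset (Fin M), A.card ≤ (A.biUnion fun i => univ.image fun j => (F i j).1).card) :
    (Set.univ ∩ ⋂ i, cl (Fin n) k (F i)).Nonempty := by
  classical
  obtain ⟨f, hf, hm⟩ := (Finset.all_card_le_biUnion_card_iff_exists_injective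
    (fun i => univ.image fun j => (F i j).1)).1 hF
  have hj : ∀ i, ∃ j, (F i j).1 = f i := by
    intro i
    have := hm i
    simp only [Finset.mem_image, Finset.mem_univ, true_and] at this
    exact this
  choose j hj using hj
  refine ⟨fun v => if h : ∃ i, f i = v then (F h.choose (j h.choose)).2 else false,
    Set.mem_univ _, ?_⟩
  rw [Set.mem_iInter]
  intro i
  refine ⟨j i, ?_⟩
  rw [hj i]
  have h1 : ∃ i', f i' = f i := ⟨i, rfl⟩
  have h2 : h1.choose = i := hf h1.choose_spec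
  change (if h : ∃ i', f i' = f i then (F h.choose (j h.choose)).2 else false) = (F i (j i)).2
  rw [dif_pos h1, h2]

/-- the event that all variables of the clauses in `A` lie in `W` -/
noncomputable def wt {n k M : ℕ} (F : Fin M → Fin k → Fin n × Bool) (A : Finset (Fin M))
    (W : Finset (Fin n)) : ℝ :=
  ∏ i, if i ∈ A then (∏ j, if (F i j).1 ∈ W then (1 : ℝ) else 0) else 1

theorem wt_nonneg {n k M : ℕ} (F : Fin M → Fin k → Fin n × Bool) (A : Finset (Fin M))
    (W : Finset (Fin n)) : 0 ≤ wt F A W := by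
  refine Finset.prod_nonneg fun i _ => ?_
  split_ifs
  · exact Finset.prod_nonneg fun j _ => by split_ifs <;> norm_num
  · norm_num

theorem ind_le_sum {n k M : ℕ} (hM : M ≤ n) (F : Fin M → Fin k → Fin n × Bool) :
    ind (Set.univ ∩ ⋂ i, cl (Fin n) k (F i)) ≤
      ∑ t ∈ range M, ∑ A ∈ powersetCard (t + 1) (univ : Finset (Fin M)),
        ∑ W ∈ powersetCard t (univ : Finset (Fin n)), wt F A W := by
  classical
  by_cases h : ∀ A : Finset (Fin M),
      A.card ≤ (A.biUnion fun i => univ.image fun j => (F i j).1).card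
  · rw [ind_of_nonempty (exists_sat F h)]
    exact Finset.sum_nonneg fun t _ => Finset.sum_nonneg fun A _ =>
      Finset.sum_nonneg fun W _ => wt_nonneg F A W
  · push Not at h
    obtain ⟨A, hA⟩ := h
    have hA1 : A.card ≤ M := by simpa using Finset.card_le_univ A
    obtain ⟨W, hW1, hW2⟩ := Finset.exists_superset_card_eq
      (s := A.biUnion fun i => univ.image fun j => (F i j).1) (n := A.card - 1) (by omega)
      (by rw [Fintype.card_fin]; omega)
    have e1 : wt F A W = 1 := by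
      refine Finset.prod_eq_one fun i _ => ?_
      split_ifs with hi
      · refine Finset.prod_eq_one fun j _ => ?_
        rw [if_pos]
        apply hW1
        rw [Finset.mem_biUnion]
        exact ⟨i, hi, Finset.mem_image.2 ⟨j, Finset.mem_univ j, rfl⟩⟩
      · rfl
    obtain ⟨t, ht⟩ : ∃ t, A.card = t + 1 := ⟨A.card - 1, by omega⟩
    have ht' : t ∈ range M := Finset.mem_range.2 (by omega)
    have hA' : A ∈ powersetCard (t + 1) (univ : Finset (Fin M)) := by
      rw [Finset.mem_powersetCard]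
      exact ⟨Finset.subset_univ A, ht⟩
    have hW' : W ∈ powersetCard t (univ : Finset (Fin n)) := by
      rw [Finset.mem_powersetCard]
      exact ⟨Finset.subset_univ W, by omega⟩
    have s1 : wt F A W ≤ ∑ W ∈ powersetCard t (univ : Finset (Fin n)), wt F A W :=
      Finset.single_le_sum (fun W _ => wt_nonneg F A W) hW'
    have s2 : ∑ W ∈ powersetCard t (univ : Finset (Fin n)), wt F A W ≤
        ∑ A ∈ powersetCard (t + 1) (univ : Finset (Fin M)),
          ∑ W ∈ powersetCard t (univ : Finset (Fin n)), wt F A W :=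
      Finset.single_le_sum (f := fun A => ∑ W ∈ powersetCard t (univ : Finset (Fin n)), wt F A W)
        (fun A _ => Finset.sum_nonneg fun W _ => wt_nonneg F A W) hA'
    have s3 : ∑ A ∈ powersetCard (t + 1) (univ : Finset (Fin M)),
          ∑ W ∈ powersetCard t (univ : Finset (Fin n)), wt F A W ≤
        ∑ t ∈ range M, ∑ A ∈ powersetCard (t + 1) (univ : Finset (Fin M)),
          ∑ W ∈ powersetCard t (univ : Finset (Fin n)), wt F A W :=
      Finset.single_le_sum (f := fun t => ∑ A ∈ powersetCard (t + 1) (univ : Finset (Fin M)),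
          ∑ W ∈ powersetCard t (univ : Finset (Fin n)), wt F A W)
        (fun t _ => Finset.sum_nonneg fun A _ => Finset.sum_nonneg fun W _ => wt_nonneg F A W) ht'
    calc ind (Set.univ ∩ ⋂ i, cl (Fin n) k (F i)) ≤ 1 := ind_le_one _
      _ = wt F A W := e1.symm
      _ ≤ _ := s1.trans (s2.trans s3)

theorem del_le_sum {n k M : ℕ} (hn : 0 < n) (hM : M ≤ n) :
    del k n M ≤ ∑ t ∈ range M, (M.choose (t + 1) : ℝ) * (n.choose t : ℝ) *
      (((t : ℝ) / n) ^ k) ^ (t + 1) := by
  have : Nonempty (Fin n) := ⟨⟨0, hn⟩⟩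
  unfold del
  rw [kap_eq_avg]
  refine (avg_mono (ind_le_sum hM)).trans (le_of_eq ?_)
  rw [avg_sum]
  refine Finset.sum_congr rfl fun t _ => ?_
  rw [avg_sum]
  have h1 : ∀ A ∈ powersetCard (t + 1) (univ : Finset (Fin M)),
      avg (fun F : Fin M → Fin k → Fin n × Bool => ∑ W ∈ powersetCard t (univ : Finset (Fin n)),
        wt F A W) =
      (n.choose t : ℝ) * (((t : ℝ) / n) ^ k) ^ (t + 1) := by
    intro A hA
    rw [avg_sum]
    have h2 : ∀ W ∈ powersetCard t (univ : Finset (Fin n)),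
        avg (fun F : Fin M → Fin k → Fin n × Bool => wt F A W) =
        (((t : ℝ) / n) ^ k) ^ (t + 1) := by
      intro W hW
      have h3 := avg_formula_mem (k := k) A W
      rw [(Finset.mem_powersetCard.1 hW).2, (Finset.mem_powersetCard.1 hA).2] at h3
      exact h3
    rw [Finset.sum_congr rfl h2, Finset.sum_const, Finset.card_powersetCard, Finset.card_univ,
      Fintype.card_fin, nsmul_eq_mul]
  rw [Finset.sum_congr rfl h1, Finset.sum_const, Finset.card_powersetCard, Finset.card_univ,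
    Fintype.card_fin, nsmul_eq_mul, mul_assoc]

/-- the bound for one term of the union bound -/
theorem term_le {n k M t : ℕ} (hk : 3 ≤ k) (hn : 0 < n) (ht : t < M) (hM : (M : ℝ) ≤ n / 64) :
    (M.choose (t + 1) : ℝ) * (n.choose t : ℝ) * (((t : ℝ) / n) ^ k) ^ (t + 1) ≤
      (1 / 4) ^ t * (1 / n) := by
  have hn' : (0 : ℝ) < n := by exact_mod_cast hn
  have ht0 : (0 : ℝ) ≤ t := Nat.cast_nonneg t
  have hM0 : (0 : ℝ) ≤ M := Nat.cast_nonneg M
  have htn : (t : ℝ) / n ≤ 1 := by
    rw [div_le_one hn']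
    have : (t : ℝ) ≤ M := by exact_mod_cast ht.le
    linarith
  have htn0 : 0 ≤ (t : ℝ) / n := by positivity
  have h1 : (M.choose (t + 1) : ℝ) ≤ (n / 64) ^ (t + 1) / ((t + 1).factorial : ℝ) := by
    refine (Nat.choose_le_pow_div (t + 1) M).trans ?_
    gcongr
  have h2 : (n.choose t : ℝ) ≤ (n : ℝ) ^ t / (t.factorial : ℝ) := Nat.choose_le_pow_div t n
  have h3 : (((t : ℝ) / n) ^ k) ^ (t + 1) ≤ (((t : ℝ) / n) ^ 3) ^ (t + 1) := by
    apply pow_le_pow_left₀ (by positivity)
    exact pow_le_pow_of_le_one htn0 htn hk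
  have h4 : (t : ℝ) ^ (t + 1) / ((t + 1).factorial : ℝ) ≤ Real.exp t :=
    Real.pow_div_factorial_le_exp t ht0 (t + 1)
  have h5 : (t : ℝ) ^ t / (t.factorial : ℝ) ≤ Real.exp t :=
    Real.pow_div_factorial_le_exp t ht0 t
  have h6 : (M.choose (t + 1) : ℝ) * (n.choose t : ℝ) * (((t : ℝ) / n) ^ k) ^ (t + 1) ≤
      ((n / 64) ^ (t + 1) / ((t + 1).factorial : ℝ)) * ((n : ℝ) ^ t / (t.factorial : ℝ)) *
        (((t : ℝ) / n) ^ 3) ^ (t + 1) := by
    gcongr
  have h7 : ((n / 64) ^ (t + 1) / ((t + 1).factorial : ℝ)) * ((n : ℝ) ^ t / (t.factorial : ℝ)) *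
        (((t : ℝ) / n) ^ 3) ^ (t + 1) =
      (1 / 64) ^ (t + 1) * ((t : ℝ) ^ (t + 1) / ((t + 1).factorial : ℝ)) *
        ((t : ℝ) ^ t / (t.factorial : ℝ)) * ((t : ℝ) / n) ^ (t + 2) := by
    have f1 : ((t + 1).factorial : ℝ) ≠ 0 := by positivity
    have f2 : (t.factorial : ℝ) ≠ 0 := by positivity
    have e1 : (t : ℝ) = (t : ℝ) / n * n := by field_simp
    set x : ℝ := (t : ℝ) / n with hx
    have e2 : (t : ℝ) ^ (t + 1) = x ^ (t + 1) * n ^ (t + 1) := by
      rw [← mul_pow, ← e1]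
    have e3 : (t : ℝ) ^ t = x ^ t * n ^ t := by
      rw [← mul_pow, ← e1]
    have e4 : ((n : ℝ) / 64) ^ (t + 1) = n ^ (t + 1) * (1 / 64) ^ (t + 1) := by
      rw [div_eq_mul_one_div, mul_pow]
    rw [e2, e3, e4, ← pow_mul]
    clear_value x
    have e5 : x ^ (3 * (t + 1)) = x ^ (t + 1) * x ^ t * x ^ (t + 2) := by ring
    rw [e5]
    ring
  have h8 : ((t : ℝ) / n) ^ (t + 2) ≤ (t : ℝ) / n := by
    calc ((t : ℝ) / n) ^ (t + 2) ≤ ((t : ℝ) / n) ^ 1 :=
          pow_le_pow_of_le_one htn0 htn (by omega)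
      _ = (t : ℝ) / n := pow_one _
  have h9 : Real.exp t * Real.exp t ≤ 8 ^ t := by
    have e1 : Real.exp t = Real.exp 1 ^ t := by
      rw [← Real.exp_nat_mul, mul_one]
    rw [e1, ← mul_pow]
    apply pow_le_pow_left₀ (by positivity)
    have := Real.exp_one_lt_d9
    have h0 := Real.exp_pos 1
    nlinarith
  have h10 : (t : ℝ) ≤ 2 ^ t := by
    have : t < 2 ^ t := Nat.lt_two_pow_self
    exact_mod_cast this.le
  calc (M.choose (t + 1) : ℝ) * (n.choose t : ℝ) * (((t : ℝ) / n) ^ k) ^ (t + 1)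
      ≤ (1 / 64) ^ (t + 1) * ((t : ℝ) ^ (t + 1) / ((t + 1).factorial : ℝ)) *
        ((t : ℝ) ^ t / (t.factorial : ℝ)) * ((t : ℝ) / n) ^ (t + 2) := h6.trans h7.le
    _ ≤ (1 / 64) ^ (t + 1) * Real.exp t * Real.exp t * ((t : ℝ) / n) := by gcongr
    _ = (1 / 64) ^ (t + 1) * (Real.exp t * Real.exp t) * ((t : ℝ) / n) := by ring
    _ ≤ (1 / 64) ^ (t + 1) * 8 ^ t * (2 ^ t / n) := by gcongr
    _ = (1 / 64) * ((1 / 64) ^ t * 8 ^ t * 2 ^ t) * (1 / n) := by ring
    _ = (1 / 64) * (1 / 4) ^ t * (1 / n) := by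
        rw [← mul_pow, ← mul_pow]; norm_num
    _ ≤ 1 * (1 / 4) ^ t * (1 / n) := by
        gcongr
        norm_num
    _ = (1 / 4) ^ t * (1 / n) := by ring

theorem del_hall_bound {n k M : ℕ} (hk : 3 ≤ k) (hn : 0 < n) (hM : (M : ℝ) ≤ n / 64) :
    del k n M ≤ 2 / n := by
  have hn' : (0 : ℝ) < n := by exact_mod_cast hn
  have hMn : M ≤ n := by
    have : (M : ℝ) ≤ n := by linarith
    exact_mod_cast this
  refine (del_le_sum hn hMn).trans ?_
  calc ∑ t ∈ range M, (M.choose (t + 1) : ℝ) * (n.choose t : ℝ) * (((t : ℝ) / n) ^ k) ^ (t + 1)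
      ≤ ∑ t ∈ range M, (1 / 4 : ℝ) ^ t * (1 / n) :=
        Finset.sum_le_sum fun t ht => term_le hk hn (Finset.mem_range.1 ht) hM
    _ = (∑ t ∈ range M, (1 / 4 : ℝ) ^ t) * (1 / n) := by rw [Finset.sum_mul]
    _ ≤ 2 * (1 / n) := by
        gcongr
        have h1 := Summable.sum_le_tsum (range M) (fun t _ => by positivity)
          (summable_geometric_of_lt_one (r := (1 / 4 : ℝ)) (by norm_num) (by norm_num))
        rw [tsum_geometric_of_lt_one (by norm_num) (by norm_num)] at h1
        norm_num at h1 ⊢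
        linarith
    _ = 2 / n := by ring

end Hall

theorem del_hall (k : ℕ) (hk : 3 ≤ k) : ∃ c₀ : ℝ, 0 < c₀ ∧
    Tendsto (fun n : ℕ => del k n ⌊c₀ * n⌋₊) atTop (𝓝 0) := by
  refine ⟨1 / 64, by norm_num, ?_⟩
  refine squeeze_zero' (Eventually.of_forall fun n => kap_nonneg _ _ _) ?_
    (tendsto_const_div_atTop_nhds_zero_nat 2)
  filter_upwards [eventually_gt_atTop 0] with n hn
  refine Hall.del_hall_bound hk hn ?_
  have := Nat.floor_le (a := (1 / 64 : ℝ) * n) (by positivity)
  linarith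

end Vale.Agent.P170
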