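import Vale.Agent.Lib.P170.Op

/-!
# P170, module KC: the probability that one random clause kills a solution set
-/

namespace Vale.Agent.P170

open Finset

theorem ind_union {Ω : Type*} (S T : Set Ω) : ind (S ∪ T) = ind S * ind T := by
  rcases S.eq_empty_or_nonempty with rfl | hS
  · rw [ind_empty, one_mul, Set.empty_union]
  · rw [ind_of_nonempty hS, zero_mul, ind_of_nonempty (hS.mono Set.subset_union_left)]

theorem cl_cons {V : Type*} (k : ℕ) (l : V × Bool) (D : Fin k → V × Bool) :
    cl V (k + 1) (Fin.cons l D) = lt l ∪ cl V k D := by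
  ext σ
  simp only [cl, lt, Set.mem_union, Set.mem_ofPred_eq, Fin.exists_fin_succ, Fin.cons_zero,
    Fin.cons_succ]

theorem avg_ind_cl {V : Type*} [Fintype V] (k : ℕ) (S : Set (V → Bool)) :
    avg (fun D : Fin k → V × Bool => ind (S ∩ cl V k D)) = phi S ^ k := by
  induction k with
  | zero =>
    have h : ∀ D : Fin 0 → V × Bool, ind (S ∩ cl V 0 D) = 1 := by
      intro D
      have h1 : S ∩ cl V 0 D = ∅ := by
        ext σ
        simp [cl]
      rw [h1, ind_empty]
    simp only [h, avg_const, pow_zero]
  | succ k ih =>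
    rw [avg_fin_succ]
    have h : ∀ (l : V × Bool) (D : Fin k → V × Bool), ind (S ∩ cl V (k + 1) (Fin.cons l D)) =
        ind (S ∩ lt l) * ind (S ∩ cl V k D) := by
      intro l D
      rw [cl_cons, Set.inter_union_distrib_left, ind_union]
    simp only [h, avg_mul_left, ih, avg_mul_right]
    rw [pow_succ, mul_comm]
    rfl

theorem kap_cl_one {V : Type*} [Fintype V] (k : ℕ) (S : Set (V → Bool)) :
    kap (cl V k) 1 S = phi S ^ k := by
  rw [kap_succ]
  simp only [kap_zero]
  exact avg_ind_cl k S

end Vale.Agent.P170
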