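import Vale.Agent.Lib.P170.Op

/-!
# P170: comparison of the lazy chain with the plain chain

`lkap_ge` : a Chebyshev-type lower bound for the lazy chain by the plain chain, proved by a direct
induction (the quadratic potential `(i + r t - R t) ^ 2 + r t`).
-/

namespace Vale.Agent.P170

open Finset

variable {Ω : Type*} {ι : Type*} [Fintype ι]

theorem lkap_ge_aux [Nonempty ι] (A : ι → Set Ω) {t : ℝ} (h0 : 0 ≤ t) (h1 : t ≤ 1) (L : ℕ)
    (μ : ℝ) (hL : (L : ℝ) < μ) (r : ℕ) : ∀ (i j : ℕ), i + j = L → ∀ S : Set Ω,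
    kap A j S * (1 - (((i : ℝ) + r * t - μ) ^ 2 + r * t) / (μ - L) ^ 2) ≤ lkap A t r S := by
  have hd : 0 < μ - L := by linarith
  have hd2 : 0 < (μ - L) ^ 2 := by positivity
  induction r with
  | zero =>
    intro i j hij S
    have hi : (i : ℝ) ≤ L := by
      have : i ≤ L := by omega
      exact_mod_cast this
    have hfac : 1 - (((i : ℝ) + (0 : ℕ) * t - μ) ^ 2 + (0 : ℕ) * t) / (μ - L) ^ 2 ≤ 0 := by
      have h3 : (μ - L) ^ 2 ≤ ((i : ℝ) + (0 : ℕ) * t - μ) ^ 2 + (0 : ℕ) * t := by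
        push_cast
        nlinarith
      have h4 : 1 ≤ (((i : ℝ) + (0 : ℕ) * t - μ) ^ 2 + (0 : ℕ) * t) / (μ - L) ^ 2 := by
        rw [le_div_iff₀ hd2]; linarith
      linarith
    have hk := kap_nonneg A j S
    have hl := lkap_nonneg A h0 h1 0 S
    exact (mul_nonpos_of_nonneg_of_nonpos hk hfac).trans hl
  | succ r ih =>
    intro i j hij S
    cases j with
    | zero =>
      rw [kap_zero]
      rcases S.eq_empty_or_nonempty with rfl | hS
      · rw [ind_empty, lkap_empty]
        have : 0 ≤ (((i : ℝ) + (r + 1 : ℕ) * t - μ) ^ 2 + (r + 1 : ℕ) * t) / (μ - L) ^ 2 := by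
          positivity
        linarith
      · rw [ind_of_nonempty hS, zero_mul]
        exact lkap_nonneg A h0 h1 _ S
    | succ j =>
      rw [lkap_succ]
      have e1 := ih i (j + 1) hij S
      have e2 : ∀ D, kap A j (S ∩ A D) *
          (1 - ((((i + 1 : ℕ) : ℝ) + r * t - μ) ^ 2 + r * t) / (μ - L) ^ 2)
            ≤ lkap A t r (S ∩ A D) := fun D => ih (i + 1) j (by omega) (S ∩ A D)
      have e3 := avg_mono e2
      rw [avg_mul_right, ← kap_succ] at e3
      have hk := kap_nonneg A (j + 1) S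
      have h4 : 0 ≤ 1 - t := by linarith
      have key : kap A (j + 1) S *
          (1 - (((i : ℝ) + (r + 1 : ℕ) * t - μ) ^ 2 + (r + 1 : ℕ) * t) / (μ - L) ^ 2)
          ≤ (1 - t) * (kap A (j + 1) S *
              (1 - (((i : ℝ) + r * t - μ) ^ 2 + r * t) / (μ - L) ^ 2)) +
            t * (kap A (j + 1) S *
              (1 - ((((i + 1 : ℕ) : ℝ) + r * t - μ) ^ 2 + r * t) / (μ - L) ^ 2)) := by
        have e : (1 - t) * (kap A (j + 1) S *
              (1 - (((i : ℝ) + r * t - μ) ^ 2 + r * t) / (μ - L) ^ 2)) +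
            t * (kap A (j + 1) S *
              (1 - ((((i + 1 : ℕ) : ℝ) + r * t - μ) ^ 2 + r * t) / (μ - L) ^ 2)) -
            kap A (j + 1) S *
          (1 - (((i : ℝ) + (r + 1 : ℕ) * t - μ) ^ 2 + (r + 1 : ℕ) * t) / (μ - L) ^ 2)
            = kap A (j + 1) S * (t ^ 2 / (μ - L) ^ 2) := by
          push_cast
          field_simp
          ring
        have : 0 ≤ kap A (j + 1) S * (t ^ 2 / (μ - L) ^ 2) := by positivity
        linarith
      calc _ ≤ _ := key
        _ ≤ _ := add_le_add (mul_le_mul_of_nonneg_left e1 h4) (mul_le_mul_of_nonneg_left e3 h0)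

/-- **Chebyshev bound for the lazy chain.** If `L < R t`, then `R` lazy constraints with success
probability `t` empty a set at least as often as `L` plain ones, up to the failure probability
`R t / (R t - L) ^ 2`. -/
theorem lkap_ge [Nonempty ι] (A : ι → Set Ω) {t : ℝ} (h0 : 0 ≤ t) (h1 : t ≤ 1) (R L : ℕ)
    (hL : (L : ℝ) < R * t) (S : Set Ω) :
    kap A L S * (1 - (R * t) / (R * t - L) ^ 2) ≤ lkap A t R S := by
  have h := lkap_ge_aux A h0 h1 L (R * t) hL R 0 L (by omega) S
  have e : (((0 : ℕ) : ℝ) + R * t - R * t) ^ 2 + R * t = R * t := by push_cast; ring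
  rwa [e] at h

end Vale.Agent.P170
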