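import Vale.Agent.Lib.P170.Op
import Vale.Agent.Lib.P170.LazyBounds

/-!
# P170, module LG: comparison of `(k+1)`-clauses with a dead first literal and `k`-clauses
-/

namespace Vale.Agent.P170

open Finset

theorem phi_nonneg_LG {V : Type*} [Fintype V] (S : Set (V → Bool)) : 0 ≤ phi S :=
  avg_nonneg fun _ => ind_nonneg _

theorem phi_le_one_LG {V : Type*} [Fintype V] [Nonempty V] (S : Set (V → Bool)) : phi S ≤ 1 :=
  avg_le_of_le fun _ => ind_le_one _

theorem inter_cl_cons_of_dead {V : Type*} {k : ℕ} {S S' : Set (V → Bool)} (hS : S' ⊆ S)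
    {l : V × Bool} (hl : S ∩ lt l = ∅) (D : Fin k → V × Bool) :
    S' ∩ cl V (k + 1) (Fin.cons l D) = S' ∩ cl V k D := by
  ext σ
  constructor
  · rintro ⟨h1, i, hi⟩
    refine ⟨h1, ?_⟩
    refine Fin.cases ?_ (fun j hj => ?_) i hi
    · intro h0
      exfalso
      have : σ ∈ S ∩ lt l := ⟨hS h1, by simpa [lt] using h0⟩
      rw [hl] at this
      exact this
    · exact ⟨j, by simpa using hj⟩
  · rintro ⟨h1, i, hi⟩
    exact ⟨h1, i.succ, by simpa using hi⟩

theorem lkap_le_kap {n : ℕ} (hn : 0 < n) (k : ℕ) (S : Set (Fin n → Bool)) (r : ℕ) :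
    ∀ S' ⊆ S, lkap (cl (Fin n) k) (phi S) r S' ≤ kap (cl (Fin n) (k + 1)) r S' := by
  have hne : Nonempty (Fin n) := ⟨⟨0, hn⟩⟩
  induction r with
  | zero => intro S' _; exact le_rfl
  | succ r ih =>
    intro S' hS'
    have hih : ∀ i, lkap (cl (Fin n) k) (phi S) r (S' ∩ cl (Fin n) k i) ≤
        kap (cl (Fin n) (k + 1)) r (S' ∩ cl (Fin n) k i) := fun i =>
      ih _ (Set.inter_subset_left.trans hS')
    have e1 : kap (cl (Fin n) (k + 1)) (r + 1) S' =
        avg fun l : Fin n × Bool => avg fun D : Fin k → Fin n × Bool =>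
          kap (cl (Fin n) (k + 1)) r (S' ∩ cl (Fin n) (k + 1) (Fin.cons l D)) := by
      rw [kap_succ]
      exact avg_fin_succ k _
    have e2 : lkap (cl (Fin n) k) (phi S) (r + 1) S' =
        avg fun l : Fin n × Bool => (ind (S ∩ lt l)) *
          (avg fun i => lkap (cl (Fin n) k) (phi S) r (S' ∩ cl (Fin n) k i)) +
          (1 - ind (S ∩ lt l)) * lkap (cl (Fin n) k) (phi S) r S' := by
      rw [avg_add, avg_mul_right, avg_mul_right, avg_sub, avg_const, lkap_succ]
      unfold phi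
      ring
    rw [e1, e2]
    refine avg_mono fun l => ?_
    rcases (S ∩ lt l).eq_empty_or_nonempty with hl | hl
    · have e3 : ind (S ∩ lt l) = 1 := by rw [hl, ind_empty]
      rw [e3, sub_self, zero_mul, add_zero, one_mul]
      refine avg_mono fun D => ?_
      rw [inter_cl_cons_of_dead hS' hl]
      exact hih D
    · rw [ind_of_nonempty hl, zero_mul, zero_add, sub_zero, one_mul]
      refine le_avg_of_le fun D => ?_
      exact (ih S' hS').trans (kap_anti _ r Set.inter_subset_left)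

theorem lemmaG (k n g J L : ℕ) (hL : 1 ≤ L) (S : Set (Fin n → Bool)) (hn : 0 < n)
    (hg : 8 * (L : ℝ) ≤ g * phi S) :
    1 - kap (cl (Fin n) (k + 1)) (g * J) S ≤ (1 - kap (cl (Fin n) k) L S / 2) ^ J := by
  have hne : Nonempty (Fin n) := ⟨⟨0, hn⟩⟩
  have hLr : (1 : ℝ) ≤ L := by exact_mod_cast hL
  have h1 := one_sub_kap_mul (cl (Fin n) (k + 1)) g J S
  have hk1 := kap_le_one (cl (Fin n) (k + 1)) g S
  have hk0 := kap_nonneg (cl (Fin n) k) L S
  have h2 := lkap_ge (cl (Fin n) k) (phi_nonneg_LG S) (phi_le_one_LG S) g L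
    (by linarith) S
  have h3 := lkap_le_kap hn k S g S subset_rfl
  set μ : ℝ := g * phi S with hμ
  have h4 : μ / (μ - L) ^ 2 ≤ 1 / 2 := by
    have h5 : 0 < μ - L := by linarith
    rw [div_le_div_iff₀ (by positivity) (by norm_num)]
    nlinarith
  have h6 : kap (cl (Fin n) k) L S / 2 ≤ kap (cl (Fin n) (k + 1)) g S := by
    refine le_trans ?_ (h2.trans h3)
    have h7 : 1 / 2 ≤ 1 - μ / (μ - L) ^ 2 := by linarith
    calc kap (cl (Fin n) k) L S / 2 = kap (cl (Fin n) k) L S * (1 / 2) := by ring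
      _ ≤ kap (cl (Fin n) k) L S * (1 - μ / (μ - L) ^ 2) := mul_le_mul_of_nonneg_left h7 hk0
  exact h1.trans (pow_le_pow_left₀ (by linarith) (by linarith) J)

end Vale.Agent.P170
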