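import Vale.Agent.Lib.P170.Seq

/-!
# P170: the cavity lemma

For a random formula `Z` with `M` clauses of width `k + 1`: the probability that a uniform literal is
dead while `L` random clauses of width `k` would kill with probability `< w` is at most about `w`.
-/

namespace Vale.Agent.P170

open Finset

/-! ### averages over clauses with one position fixed -/

theorem avg_insert {α : Type*} [Fintype α] [DecidableEq α] (k : ℕ) (p : Fin (k + 1)) (a : α)
    (f : (Fin k → α) → ℝ) :
    avg (fun D : Fin (k + 1) → α => if D p = a then f (fun i => D (p.succAbove i)) else 0) =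
      1 / (Fintype.card α : ℝ) * avg f := by
  rw [← avg_equiv (Fin.insertNthEquiv (fun _ => α) p), avg_prod]
  simp only [Fin.insertNthEquiv_apply, Fin.insertNth_apply_same, Fin.insertNth_apply_succAbove]
  unfold avg
  have : ∀ x : α, (∑ x_1 : Fin k → α, if x = a then f x_1 else 0) / (Fintype.card (Fin k → α) : ℝ)
      = if x = a then (∑ x_1 : Fin k → α, f x_1) / (Fintype.card (Fin k → α) : ℝ) else 0 := by
    intro x
    split_ifs with h
    · rfl
    · simp
  simp only [this]
  rw [Finset.sum_ite_eq' Finset.univ a]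
  simp
  ring

section

variable {n : ℕ} (k L : ℕ) (w c : ℝ) (l' : Fin n × Bool)

/-- indicator of clauses avoiding the literal `l'` -/
noncomputable def ia {W : ℕ} (D : Fin W → Fin n × Bool) : ℝ := by
  classical exact if ∀ i, D i ≠ l' then 1 else 0

/-- average over clauses avoiding `l'`, acting on both coordinates -/
noncomputable def Ea (F : Set (Fin n → Bool) → Set (Fin n → Bool) → ℝ)
    (P R : Set (Fin n → Bool)) : ℝ :=
  avg fun D : Fin (k + 1) → Fin n × Bool =>
    ia l' D * F (P ∩ cl (Fin n) (k + 1) D) (R ∩ cl (Fin n) (k + 1) D)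

/-- average over `k`-clauses acting on the second coordinate -/
noncomputable def Er (F : Set (Fin n → Bool) → Set (Fin n → Bool) → ℝ)
    (P R : Set (Fin n → Bool)) : ℝ :=
  avg fun D : Fin k → Fin n × Bool => F P (R ∩ cl (Fin n) k D)

/-- the operator `Ea + c` -/
noncomputable def Uop (F : Set (Fin n → Bool) → Set (Fin n → Bool) → ℝ)
    (P R : Set (Fin n → Bool)) : ℝ :=
  Ea k l' F P R + c * F P R

/-- the test function -/
noncomputable def hb (b : ℕ) (P R : Set (Fin n → Bool)) : ℝ := by
  classical exact (if kap (cl (Fin n) k) L P < w then 1 else 0) * kap (cl (Fin n) k) b R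

theorem ia_nonneg {W : ℕ} (D : Fin W → Fin n × Bool) : 0 ≤ ia l' D := by
  unfold ia; split_ifs <;> norm_num

theorem ia_le_one {W : ℕ} (D : Fin W → Fin n × Bool) : ia l' D ≤ 1 := by
  unfold ia; split_ifs <;> norm_num

theorem Er_Uop (F : Set (Fin n → Bool) → Set (Fin n → Bool) → ℝ) :
    Er k (Uop k c l' F) = Uop k c l' (Er k F) := by
  funext P R
  unfold Er Uop
  rw [avg_add, avg_mul_left]
  congr 1
  unfold Ea
  rw [avg_comm]
  congr 1; funext D
  rw [avg_mul_left]
  congr 2; funext D'
  rw [Set.inter_right_comm]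

theorem Er_iter (F : Set (Fin n → Bool) → Set (Fin n → Bool) → ℝ) (r : ℕ) :
    Er k ((Uop k c l')^[r] F) = (Uop k c l')^[r] (Er k F) := by
  induction r generalizing F with
  | zero => rfl
  | succ r ih => rw [Function.iterate_succ_apply, ih, Er_Uop, ← Function.iterate_succ_apply]

theorem Er_hb (b : ℕ) : Er k (hb k L w b) = hb (n := n) k L w (b + 1) := by
  funext P R
  unfold Er hb
  rw [avg_mul_left, kap_succ]

theorem Uop_nonneg (hc : 0 ≤ c) {F : Set (Fin n → Bool) → Set (Fin n → Bool) → ℝ}
    (hF : ∀ P R, 0 ≤ F P R) (P R : Set (Fin n → Bool)) : 0 ≤ Uop k c l' F P R := by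
  unfold Uop Ea
  have h1 : 0 ≤ avg fun D : Fin (k + 1) → Fin n × Bool =>
    ia l' D * F (P ∩ cl (Fin n) (k + 1) D) (R ∩ cl (Fin n) (k + 1) D) :=
    avg_nonneg fun D => mul_nonneg (ia_nonneg l' D) (hF _ _)
  have h2 := mul_nonneg hc (hF P R)
  linarith

theorem Uiter_nonneg (hc : 0 ≤ c) {F : Set (Fin n → Bool) → Set (Fin n → Bool) → ℝ}
    (hF : ∀ P R, 0 ≤ F P R) (r : ℕ) (P R : Set (Fin n → Bool)) :
    0 ≤ (Uop k c l')^[r] F P R := by
  induction r generalizing P R with
  | zero => exact hF P R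
  | succ r ih =>
    rw [Function.iterate_succ_apply']
    exact Uop_nonneg k c l' hc ih P R

theorem hb_nonneg (b : ℕ) (P R : Set (Fin n → Bool)) : 0 ≤ hb k L w b P R := by
  unfold hb
  apply mul_nonneg
  · split_ifs <;> norm_num
  · exact kap_nonneg _ _ _

theorem hb_diag [Nonempty (Fin k → Fin n × Bool)] (hw : 0 ≤ w) (b : ℕ) (hbL : b ≤ L)
    (P : Set (Fin n → Bool)) : hb k L w b P P ≤ w := by
  unfold hb
  split_ifs with h
  · rw [one_mul]
    exact (kap_mono (cl (Fin n) k) P hbL).trans h.le
  · simpa using hw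

theorem Uiter_diag [Nonempty (Fin (k + 1) → Fin n × Bool)] (hc : 0 ≤ c) (hw : 0 ≤ w)
    {F : Set (Fin n → Bool) → Set (Fin n → Bool) → ℝ} (hF : ∀ P, F P P ≤ w) (r : ℕ)
    (P : Set (Fin n → Bool)) : (Uop k c l')^[r] F P P ≤ (1 + c) ^ r * w := by
  induction r generalizing P with
  | zero => simpa using hF P
  | succ r ih =>
    rw [Function.iterate_succ_apply']
    unfold Uop Ea
    have h0 : 0 ≤ (1 + c) ^ r * w := by positivity
    have h1 : (avg fun D : Fin (k + 1) → Fin n × Bool =>
        ia l' D * (Uop k c l')^[r] F (P ∩ cl (Fin n) (k + 1) D) (P ∩ cl (Fin n) (k + 1) D)) ≤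
        (1 + c) ^ r * w := by
      refine avg_le_of_le fun D => ?_
      have := ih (P ∩ cl (Fin n) (k + 1) D)
      have h2 := ia_nonneg l' D
      have h3 := ia_le_one l' D
      calc ia l' D * (Uop k c l')^[r] F (P ∩ cl (Fin n) (k + 1) D) (P ∩ cl (Fin n) (k + 1) D)
          ≤ ia l' D * ((1 + c) ^ r * w) := by gcongr
        _ ≤ 1 * ((1 + c) ^ r * w) := by gcongr
        _ = _ := one_mul _
    have h4 := mul_le_mul_of_nonneg_left (ih P) hc
    calc _ ≤ (1 + c) ^ r * w + c * ((1 + c) ^ r * w) := add_le_add h1 h4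
      _ = (1 + c) ^ (r + 1) * w := by ring

/-! ### flipping -/

/-- the negation of a literal -/
def ng (l : Fin n × Bool) : Fin n × Bool := (l.1, !l.2)

theorem flip_alpha {W : ℕ} (l : Fin n × Bool) (D : Fin W → Fin n × Bool) (σ : Fin n → Bool)
    (hσ : σ ∈ lt (ng l)) (i : Fin W) (hi : D i ≠ ng l) (hs : σ (D i).1 = (D i).2) :
    (Function.update σ l.1 l.2) (D i).1 = (D i).2 := by
  have h : (D i).1 ≠ l.1 := by
    intro h
    apply hi
    have h2 : σ l.1 = !l.2 := hσ
    ext
    · simp [ng, h]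
    · rw [← hs, h, h2]; rfl
  rw [Function.update_of_ne h]
  exact hs

/-- functional of the lemma -/
noncomputable def Qf (l : Fin n × Bool) (S : Set (Fin n → Bool)) : ℝ := by
  classical exact ind (S ∩ lt l) * (if kap (cl (Fin n) k) L S < w then 1 else 0)

theorem Qf_nonneg (l : Fin n × Bool) (S : Set (Fin n → Bool)) : 0 ≤ Qf k L w l S := by
  unfold Qf
  apply mul_nonneg (ind_nonneg _)
  split_ifs <;> norm_num

theorem Qf_le_one (l : Fin n × Bool) (S : Set (Fin n → Bool)) : Qf k L w l S ≤ 1 := by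
  unfold Qf
  have := ind_le_one (S ∩ lt l)
  have h0 := ind_nonneg (S ∩ lt l)
  split_ifs <;> nlinarith

/-- base case -/
theorem Qf_base [Nonempty (Fin k → Fin n × Bool)] (l : Fin n × Bool) (S R : Set (Fin n → Bool)) (b : ℕ)
    (hRS : ∀ σ ∈ R, Function.update σ l.1 l.2 ∈ S) :
    Qf k L w l S ≤ hb k L w b (S ∩ lt (ng l)) R := by
  rcases (S ∩ lt l).eq_empty_or_nonempty with h | h
  · have hR : R = ∅ := by
      rw [Set.eq_empty_iff_forall_notMem]
      intro σ hσ
      have h1 := hRS σ hσ
      have h2 : Function.update σ l.1 l.2 ∈ S ∩ lt l := ⟨h1, by simp [lt]⟩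
      rw [h] at h2; exact h2
    have hS : S ∩ lt (ng l) = S := by
      apply Set.inter_eq_left.mpr
      intro σ hσ
      by_contra hcon
      have h2 : σ ∈ S ∩ lt l := by
        refine ⟨hσ, ?_⟩
        have h3 : ¬ (σ l.1 = !l.2) := hcon
        change σ l.1 = l.2
        revert h3
        cases σ l.1 <;> cases l.2 <;> simp
      rw [h] at h2; exact h2
    rw [hR, hS]
    unfold Qf hb
    rw [h, ind_empty, kap_empty, one_mul, mul_one]
  · have : Qf k L w l S = 0 := by unfold Qf; rw [ind_of_nonempty h, zero_mul]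
    rw [this]
    exact hb_nonneg k L w b _ _

/-- indicator: literal `l'` at position `p` and nowhere else -/
noncomputable def ib (p : Fin (k + 1)) (D : Fin (k + 1) → Fin n × Bool) : ℝ := by
  classical exact if D p = l' ∧ ∀ i, D (p.succAbove i) ≠ l' then 1 else 0

/-- half the number of ordered pairs of occurrences of `l'` -/
noncomputable def ig (D : Fin (k + 1) → Fin n × Bool) : ℝ :=
  (1 / 2) * ∑ p : Fin (k + 1), (if D p = l' then
    (∑ q : Fin k, if D (p.succAbove q) = l' then (1 : ℝ) else 0) else 0)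

theorem ib_nonneg (p : Fin (k + 1)) (D : Fin (k + 1) → Fin n × Bool) : 0 ≤ ib k l' p D := by
  unfold ib; split_ifs <;> norm_num

theorem ig_nonneg (D : Fin (k + 1) → Fin n × Bool) : 0 ≤ ig k l' D := by
  unfold ig
  apply mul_nonneg (by norm_num)
  refine Finset.sum_nonneg fun p _ => ?_
  split_ifs
  · exact Finset.sum_nonneg fun q _ => by split_ifs <;> norm_num
  · exact le_rfl

/-- the three kinds of clauses -/
theorem kinds (D : Fin (k + 1) → Fin n × Bool) :
    (∀ i, D i ≠ l') ∨ (∃ p : Fin (k + 1), D p = l' ∧ ∀ i, D (p.succAbove i) ≠ l') ∨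
      1 ≤ ig k l' D := by
  by_cases h : ∀ i, D i ≠ l'
  · exact Or.inl h
  · push Not at h
    obtain ⟨p, hp⟩ := h
    by_cases h2 : ∀ i, D (p.succAbove i) ≠ l'
    · exact Or.inr (Or.inl ⟨p, hp, h2⟩)
    · push Not at h2
      obtain ⟨i, hi⟩ := h2
      refine Or.inr (Or.inr ?_)
      set q := p.succAbove i with hq
      have hqp : q ≠ p := Fin.succAbove_ne p i
      obtain ⟨j, hj⟩ := Fin.exists_succAbove_eq hqp.symm
      have hnn : ∀ p' : Fin (k + 1), 0 ≤ (if D p' = l' then
          (∑ q : Fin k, if D (p'.succAbove q) = l' then (1 : ℝ) else 0) else 0) := by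
        intro p'
        split_ifs
        · exact Finset.sum_nonneg fun q _ => by split_ifs <;> norm_num
        · exact le_rfl
      have h1 : ∀ (p' : Fin (k + 1)) (i' : Fin k), D p' = l' → D (p'.succAbove i') = l' →
          1 ≤ (if D p' = l' then
          (∑ q : Fin k, if D (p'.succAbove q) = l' then (1 : ℝ) else 0) else 0) := by
        intro p' i' h1 h2
        rw [if_pos h1]
        have := Finset.single_le_sum (f := fun q : Fin k => if D (p'.succAbove q) = l' then (1 : ℝ) else 0)
          (fun q _ => by split_ifs <;> norm_num) (Finset.mem_univ i')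
        simpa [h2] using this
      have hA := h1 p i hp hi
      have hB := h1 q j hi (by rw [hj]; exact hp)
      have hsum : (if D p = l' then
          (∑ q : Fin k, if D (p.succAbove q) = l' then (1 : ℝ) else 0) else 0) +
          (if D q = l' then
          (∑ q' : Fin k, if D (q.succAbove q') = l' then (1 : ℝ) else 0) else 0) ≤
          ∑ p : Fin (k + 1), (if D p = l' then
          (∑ q : Fin k, if D (p.succAbove q) = l' then (1 : ℝ) else 0) else 0) := by
        rw [← Finset.sum_pair hqp.symm (f := fun p' => (if D p' = l' then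
          (∑ q : Fin k, if D (p'.succAbove q) = l' then (1 : ℝ) else 0) else 0))]
        exact Finset.sum_le_sum_of_subset_of_nonneg (Finset.subset_univ _) fun i _ _ => hnn i
      unfold ig
      linarith

theorem ia_add_ib_le (D : Fin (k + 1) → Fin n × Bool) :
    ia l' D + ∑ p, ib k l' p D ≤ 1 := by
  by_cases h : ∀ i, D i ≠ l'
  · have h1 : ia l' D = 1 := by unfold ia; rw [if_pos h]
    have h2 : ∀ p, ib k l' p D = 0 := by
      intro p; unfold ib; rw [if_neg]; exact fun hh => h p hh.1
    simp [h1, h2]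
  · have h1 : ia l' D = 0 := by unfold ia; rw [if_neg h]
    rw [h1, zero_add]
    push Not at h
    obtain ⟨p, hp⟩ := h
    have h2 : ∀ q, q ≠ p → ib k l' q D = 0 := by
      intro q hq; unfold ib; rw [if_neg]
      rintro ⟨_, h4⟩
      obtain ⟨j, hj⟩ := Fin.exists_succAbove_eq hq.symm
      exact h4 j (by rw [hj]; exact hp)
    rw [Finset.sum_eq_single p (fun q _ hq => h2 q hq) (fun h => absurd (Finset.mem_univ _) h)]
    unfold ib; split_ifs <;> norm_num

theorem card_lit : (Fintype.card (Fin n × Bool) : ℝ) = 2 * n := by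
  simp [Fintype.card_prod]; ring

theorem avg_ib_le (p : Fin (k + 1)) {f : (Fin k → Fin n × Bool) → ℝ} (hf : ∀ D, 0 ≤ f D) :
    avg (fun D : Fin (k + 1) → Fin n × Bool => ib k l' p D * f (fun i => D (p.succAbove i))) ≤
      1 / (2 * n) * avg f := by
  rw [← card_lit, ← avg_insert k p l' f]
  refine avg_mono fun D => ?_
  unfold ib
  split_ifs with h1 h2 h2
  · simp
  · exact absurd h1.1 h2
  · rw [zero_mul]; exact hf _
  · simp

theorem avg_ig (hn : 0 < n) : avg (ig (n := n) k l') ≤ (k + 1) ^ 2 / (8 * n ^ 2) := by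
  have hn' : (0 : ℝ) < n := by exact_mod_cast hn
  have : NeZero n := ⟨hn.ne'⟩
  unfold ig
  rw [avg_mul_left, avg_sum]
  have h1 : ∀ p : Fin (k + 1), avg (fun D : Fin (k + 1) → Fin n × Bool => (if D p = l' then
      (∑ q : Fin k, if D (p.succAbove q) = l' then (1 : ℝ) else 0) else 0)) =
      1 / (2 * n) * (k * (1 / (2 * n))) := by
    intro p
    have := avg_insert k p l' (fun D' : Fin k → Fin n × Bool =>
      ∑ q : Fin k, if D' q = l' then (1 : ℝ) else 0)
    rw [this, card_lit, avg_sum]
    congr 1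
    have h2 : ∀ q : Fin k, avg (fun D' : Fin k → Fin n × Bool => if D' q = l' then (1 : ℝ) else 0)
        = 1 / (2 * n) := by
      intro q
      obtain ⟨k', rfl⟩ : ∃ k', k = k' + 1 := ⟨k - 1, by have := q.2; omega⟩
      have := avg_insert k' q l' (fun _ : Fin k' → Fin n × Bool => (1 : ℝ))
      rw [this, card_lit, avg_const, mul_one]
    simp only [h2, Finset.sum_const, Finset.card_univ, Fintype.card_fin, nsmul_eq_mul]
  simp only [h1, Finset.sum_const, Finset.card_univ, Fintype.card_fin, nsmul_eq_mul]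
  have : (1 / 2 : ℝ) * (((k + 1 : ℕ) : ℝ) * (1 / (2 * n) * (k * (1 / (2 * n))))) =
      (k + 1) * k / (8 * n ^ 2) := by
    push_cast
    field_simp
    ring
  rw [this]
  gcongr
  have : (0 : ℝ) ≤ k := Nat.cast_nonneg k
  nlinarith

/-- the main induction -/
theorem main_ind (hn : 0 < n) (hc : c = (k + 1) / (2 * n)) (l : Fin n × Bool) (r : ℕ) :
    ∀ (S R : Set (Fin n → Bool)) (b : ℕ), (∀ σ ∈ R, σ ∈ lt (ng l)) →
      (∀ σ ∈ R, Function.update σ l.1 l.2 ∈ S) →
      opn (cl (Fin n) (k + 1)) r (Qf k L w l) S ≤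
        (Uop k c (ng l))^[r] (hb k L w b) (S ∩ lt (ng l)) R +
          r * ((k + 1) ^ 2 / (8 * n ^ 2)) + (1 / 4) ^ b * (1 + 3 * c) ^ r := by
  have hn' : (0 : ℝ) < n := by exact_mod_cast hn
  have : NeZero n := ⟨hn.ne'⟩
  have hc0 : 0 ≤ c := by rw [hc]; positivity
  induction r with
  | zero =>
    intro S R b _ hRS
    have h1 := Qf_base k L w l S R b hRS
    have h2 : (0 : ℝ) ≤ (1 / 4) ^ b := by positivity
    simp only [opn_zero, Function.iterate_zero, id, Nat.cast_zero, zero_mul, add_zero, pow_zero,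
      mul_one]
    linarith
  | succ r ih =>
    intro S R b hR hRS
    set g0 : ℝ := (k + 1) ^ 2 / (8 * n ^ 2) with hg0
    set E : ℝ := (1 / 4) ^ b * (1 + 3 * c) ^ r with hE
    have hg0' : 0 ≤ g0 := by positivity
    have hE0 : 0 ≤ E := by positivity
    set P := S ∩ lt (ng l) with hP
    -- the value for beta clauses
    set Z : (Fin k → Fin n × Bool) → ℝ := fun D' =>
      if b = 0 then 0 else (Uop k c (ng l))^[r] (hb k L w (b - 1)) P (R ∩ cl (Fin n) k D') with hZ
    have hZ0 : ∀ D', 0 ≤ Z D' := by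
      intro D'
      simp only [hZ]
      split_ifs
      · exact le_rfl
      · exact Uiter_nonneg k c _ hc0 (fun P R => hb_nonneg k L w _ P R) r _ _
    have hpt : ∀ D : Fin (k + 1) → Fin n × Bool,
        opn (cl (Fin n) (k + 1)) r (Qf k L w l) (S ∩ cl (Fin n) (k + 1) D) ≤
        (ia (ng l) D * (Uop k c (ng l))^[r] (hb k L w b) (P ∩ cl (Fin n) (k + 1) D)
            (R ∩ cl (Fin n) (k + 1) D) +
        ∑ p, ib k (ng l) p D * Z (fun i => D (p.succAbove i))) +
        (ig k (ng l) D + (r * g0 * 1 + E * (1 + 3 * ∑ p, ib k (ng l) p D))) := by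
      intro D
      have hU : 0 ≤ (Uop k c (ng l))^[r] (hb k L w b) (P ∩ cl (Fin n) (k + 1) D)
            (R ∩ cl (Fin n) (k + 1) D) :=
        Uiter_nonneg k c _ hc0 (fun P R => hb_nonneg k L w _ P R) r _ _
      have hib : ∀ p, 0 ≤ ib k (ng l) p D * Z (fun i => D (p.succAbove i)) := fun p =>
        mul_nonneg (ib_nonneg _ _ _ _) (hZ0 _)
      have hsib : 0 ≤ ∑ p, ib k (ng l) p D := Finset.sum_nonneg fun p _ => ib_nonneg _ _ _ _
      have hsibz : 0 ≤ ∑ p, ib k (ng l) p D * Z (fun i => D (p.succAbove i)) :=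
        Finset.sum_nonneg fun p _ => hib p
      have hia0 := ia_nonneg (ng l) D
      have hig0 := ig_nonneg k (ng l) D
      have hrg : 0 ≤ (r : ℝ) * g0 := by positivity
      have hle1 : opn (cl (Fin n) (k + 1)) r (Qf k L w l) (S ∩ cl (Fin n) (k + 1) D) ≤ 1 :=
        opn_le_of_le _ _ fun T _ => Qf_le_one k L w l T
      have hone : 1 ≤ (1 + 3 * c) ^ r := one_le_pow₀ (by linarith)
      rcases kinds k (ng l) D with h | ⟨p, hp, hp2⟩ | h
      · -- alpha
        have h1 : ia (ng l) D = 1 := by unfold ia; rw [if_pos h]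
        have h2 := ih (S ∩ cl (Fin n) (k + 1) D) (R ∩ cl (Fin n) (k + 1) D) b
          (fun σ hσ => hR σ hσ.1) (by
            rintro σ ⟨hσ1, i, hi⟩
            exact ⟨hRS σ hσ1, i, flip_alpha l D σ (hR σ hσ1) i (h i) hi⟩)
        rw [Set.inter_right_comm, ← hP] at h2
        rw [h1, one_mul]
        nlinarith [mul_nonneg hE0 hsib]
      · -- beta
        have h1 : ib k (ng l) p D = 1 := by unfold ib; rw [if_pos ⟨hp, hp2⟩]
        have hs1 : 1 ≤ ∑ p, ib k (ng l) p D := by
          rw [← h1]
          exact Finset.single_le_sum (f := fun p => ib k (ng l) p D)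
            (fun p _ => ib_nonneg _ _ _ _) (Finset.mem_univ p)
        have hs2 : Z (fun i => D (p.succAbove i)) ≤
            ∑ p, ib k (ng l) p D * Z (fun i => D (p.succAbove i)) := by
          have := Finset.single_le_sum (f := fun p => ib k (ng l) p D * Z (fun i => D (p.succAbove i)))
            (fun p _ => hib p) (Finset.mem_univ p)
          simpa [h1] using this
        have hEs : E * 4 ≤ E * (1 + 3 * ∑ p, ib k (ng l) p D) :=
          mul_le_mul_of_nonneg_left (by linarith) hE0
        have hia := mul_nonneg hia0 hU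
        rcases Nat.eq_zero_or_pos b with hb0 | hb0
        · have : 1 ≤ E := by rw [hE, hb0]; simpa using hone
          linarith
        · have h2 := ih (S ∩ cl (Fin n) (k + 1) D)
            (R ∩ cl (Fin n) k (fun i => D (p.succAbove i))) (b - 1)
            (fun σ hσ => hR σ hσ.1) (by
              rintro σ ⟨hσ1, i, hi⟩
              exact ⟨hRS σ hσ1, p.succAbove i,
                flip_alpha l D σ (hR σ hσ1) (p.succAbove i) (hp2 i) hi⟩)
          have h3 : S ∩ cl (Fin n) (k + 1) D ∩ lt (ng l) = P := by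
            rw [Set.inter_right_comm, ← hP]
            apply Set.inter_eq_left.mpr
            intro σ hσ
            refine ⟨p, ?_⟩
            rw [hp]; exact hσ.2
          rw [h3] at h2
          have h4 : Z (fun i => D (p.succAbove i)) =
              (Uop k c (ng l))^[r] (hb k L w (b - 1)) P
                (R ∩ cl (Fin n) k (fun i => D (p.succAbove i))) := by
            simp only [hZ]; rw [if_neg hb0.ne']
          rw [← h4] at h2
          have h5 : (1 / 4 : ℝ) ^ (b - 1) * (1 + 3 * c) ^ r = 4 * E := by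
            obtain ⟨b', rfl⟩ : ∃ b', b = b' + 1 := ⟨b - 1, by omega⟩
            rw [hE, Nat.add_sub_cancel, pow_succ]; ring
          rw [h5] at h2
          linarith
      · -- gamma
        have := mul_nonneg hia0 hU
        nlinarith [mul_nonneg hE0 hsib]
    rw [opn_succ_apply]
    refine (avg_mono hpt).trans ?_
    rw [avg_add, avg_add, avg_add, avg_sum, avg_add, avg_const, avg_mul_left, avg_add, avg_const,
      avg_mul_left, avg_sum]
    -- beta average
    have hβ : ∑ p, avg (fun D : Fin (k + 1) → Fin n × Bool =>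
        ib k (ng l) p D * Z (fun i => D (p.succAbove i))) ≤
        c * (Uop k c (ng l))^[r] (hb k L w b) P R := by
      have h1 : ∀ p ∈ (Finset.univ : Finset (Fin (k + 1))), avg (fun D : Fin (k + 1) → Fin n × Bool =>
        ib k (ng l) p D * Z (fun i => D (p.succAbove i))) ≤ 1 / (2 * n) * avg Z := fun p _ =>
        avg_ib_le k (ng l) p hZ0
      have h2 : avg Z ≤ (Uop k c (ng l))^[r] (hb k L w b) P R := by
        rcases Nat.eq_zero_or_pos b with hb0 | hb0
        · have : Z = fun _ => 0 := by funext D'; simp [hZ, hb0]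
          rw [this, avg_const]
          exact Uiter_nonneg k c _ hc0 (fun P R => hb_nonneg k L w _ P R) r _ _
        · have h3 : Z = fun D' => (Uop k c (ng l))^[r] (hb k L w (b - 1)) P
              (R ∩ cl (Fin n) k D') := by
            funext D'; simp only [hZ]; rw [if_neg hb0.ne']
          have h4 : avg Z = Er k ((Uop k c (ng l))^[r] (hb k L w (b - 1))) P R := by
            rw [h3]; rfl
          rw [h4, Er_iter, Er_hb, Nat.sub_add_cancel hb0]
      refine (Finset.sum_le_sum h1).trans ?_
      rw [Finset.sum_const, Finset.card_univ, Fintype.card_fin, nsmul_eq_mul]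
      have h5 : ((k + 1 : ℕ) : ℝ) * (1 / (2 * n) * avg Z) = c * avg Z := by
        rw [hc]; push_cast; ring
      rw [h5]
      exact mul_le_mul_of_nonneg_left h2 hc0
    have hib1 : ∑ p, avg (fun D : Fin (k + 1) → Fin n × Bool => ib k (ng l) p D) ≤ c := by
      have h1 : ∀ p ∈ (Finset.univ : Finset (Fin (k + 1))), avg (fun D : Fin (k + 1) → Fin n × Bool =>
        ib k (ng l) p D) ≤ 1 / (2 * n) := by
        intro p _
        have := avg_ib_le k (ng l) p (f := fun _ => 1) (fun _ => zero_le_one)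
        simpa [avg_const] using this
      refine (Finset.sum_le_sum h1).trans ?_
      rw [Finset.sum_const, Finset.card_univ, Fintype.card_fin, nsmul_eq_mul, hc]
      push_cast
      rw [mul_one_div]
    have hγ := avg_ig k (ng l) hn
    rw [Function.iterate_succ_apply']
    have hUe : Uop k c (ng l) ((Uop k c (ng l))^[r] (hb k L w b)) P R =
        avg (fun D : Fin (k + 1) → Fin n × Bool => ia (ng l) D *
          (Uop k c (ng l))^[r] (hb k L w b) (P ∩ cl (Fin n) (k + 1) D)
            (R ∩ cl (Fin n) (k + 1) D)) + c * (Uop k c (ng l))^[r] (hb k L w b) P R := rfl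
    rw [hUe]
    have hEc : E * (1 + 3 * ∑ p, avg (fun D : Fin (k + 1) → Fin n × Bool => ib k (ng l) p D)) ≤
        (1 / 4) ^ b * (1 + 3 * c) ^ (r + 1) := by
      calc _ ≤ E * (1 + 3 * c) := mul_le_mul_of_nonneg_left (by linarith) hE0
        _ = _ := by rw [hE, pow_succ]; ring
    push_cast
    linarith

end

open Classical in
/-- **The cavity lemma.** -/
theorem lemmaV (k n M L : ℕ) (w : ℝ) (hn : 0 < n) (hw : 0 ≤ w) :
    opn (cl (Fin n) (k + 1)) M
      (fun S => phi S * (if kap (cl (Fin n) k) L S < w then 1 else 0)) Set.univ ≤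
    (1 + (k + 1) / (2 * n)) ^ M * w + M * (k + 1) ^ 2 / (8 * n ^ 2)
      + (1 / 4) ^ L * (1 + 3 * (k + 1) / (2 * n)) ^ M := by
  have hn' : (0 : ℝ) < n := by exact_mod_cast hn
  have : NeZero n := ⟨hn.ne'⟩
  have h1 : opn (cl (Fin n) (k + 1)) M
      (fun S => phi S * (if kap (cl (Fin n) k) L S < w then 1 else 0)) Set.univ =
      avg (fun l : Fin n × Bool => opn (cl (Fin n) (k + 1)) M (Qf k L w l) Set.univ) := by
    simp only [opn_eq_avg]
    rw [avg_comm]
    congr 1; funext F
    unfold phi
    rw [← avg_mul_right]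
    congr 1
  rw [h1]
  refine avg_le_of_le fun l => ?_
  have h2 := main_ind k L w ((k + 1) / (2 * n)) hn rfl l M Set.univ (lt (ng l)) L
    (fun σ hσ => hσ) (fun σ _ => Set.mem_univ _)
  rw [Set.univ_inter] at h2
  have h3 := Uiter_diag (n := n) k w ((k + 1) / (2 * n)) (ng l) (by positivity) hw
    (F := hb k L w L) (fun P => hb_diag k L w hw L le_rfl P) M (lt (ng l))
  have h4 : (M : ℝ) * ((k + 1) ^ 2 / (8 * n ^ 2)) = M * (k + 1) ^ 2 / (8 * n ^ 2) := by ring
  have h5 : (1 + 3 * (((k : ℝ) + 1) / (2 * n))) = 1 + 3 * (k + 1) / (2 * n) := by ring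
  rw [h4, h5] at h2
  linarith

end Vale.Agent.P170
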