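import Vale.Agent.Lib.P170.Op

/-!
# P170: the iterated averaging operator as an average over sequences of constraints
-/

namespace Vale.Agent.P170

open Finset

variable {Ω : Type*} {ι : Type*} [Fintype ι]

theorem opn_eq_avg (A : ι → Set Ω) (m : ℕ) (f : Set Ω → ℝ) (S : Set Ω) :
    opn A m f S = avg (fun F : Fin m → ι => f (S ∩ ⋂ i, A (F i))) := by
  induction m generalizing S with
  | zero =>
    rw [opn_zero]
    have : (fun F : Fin 0 → ι => f (S ∩ ⋂ i, A (F i))) = fun _ => f S := by
      funext F; simp
    rw [this, avg_const]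
  | succ m ih =>
    rw [opn_succ_apply, avg_fin_succ]
    congr 1; funext i
    rw [ih]
    congr 1; funext F
    congr 1
    ext σ
    simp only [Set.mem_inter_iff, Set.mem_iInter, Fin.forall_fin_succ, Fin.cons_zero, Fin.cons_succ]
    tauto

theorem kap_eq_avg (A : ι → Set Ω) (m : ℕ) (S : Set Ω) :
    kap A m S = avg (fun F : Fin m → ι => ind (S ∩ ⋂ i, A (F i))) :=
  opn_eq_avg A m ind S

/-- bound for the nondoomed kill probability -/
theorem psi_le [Nonempty ι] (A : ι → Set Ω) (N : ℕ) (hN : 0 < N) (S : Set Ω) :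
    psi A N S ≤ 1 / N := by
  have hN' : (0 : ℝ) < N := by exact_mod_cast hN
  unfold psi
  split_ifs with h
  · have h1 := one_sub_kap_mul A 1 N S
    rw [one_mul] at h1
    have hk0 := kap_nonneg A 1 S
    have hk1 := kap_le_one A 1 S
    by_contra hcon
    push Not at hcon
    have h2 : (1 - kap A 1 S) ^ N ≤ Real.exp (-(kap A 1 S)) ^ N := by
      apply pow_le_pow_left₀ (by linarith)
      have := Real.add_one_le_exp (-(kap A 1 S)); linarith
    have h3 : Real.exp (-(kap A 1 S)) ^ N = Real.exp (-(N * kap A 1 S)) := by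
      rw [← Real.exp_nat_mul]; ring_nf
    have h4 : 1 < N * kap A 1 S := by
      rw [div_lt_iff₀ hN'] at hcon; linarith
    have h5 : Real.exp (-(N * kap A 1 S)) < Real.exp (-1) := Real.exp_lt_exp.mpr (by linarith)
    have h6 : Real.exp (-1) < 1 / 2 := by
      rw [Real.exp_neg, inv_lt_comm₀ (Real.exp_pos 1) (by norm_num)]
      have := Real.exp_one_gt_d9
      norm_num; linarith
    linarith
  · positivity

end Vale.Agent.P170
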