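import Vale.Agent.Lib.P170.Op
import Vale.Agent.Lib.P170.Seq
import Vale.Agent.Lib.P170.KillOne
import Vale.Agent.Lib.P170.LemmaV
import Vale.Agent.Lib.P170.LemmaG

/-!
# P170: finite form of the main lemma on nondoomed kills
-/

namespace Vale.Agent.P170

open Finset

theorem phi_nonneg {V : Type*} [Fintype V] (S : Set (V → Bool)) : 0 ≤ phi S :=
  avg_nonneg fun _ => ind_nonneg _

/-- Pointwise bound for the nondoomed kill probability. -/
theorem psi_cl_le (k n N g J L : ℕ) (φ₀ : ℝ) (hn : 0 < n) (hN : 0 < N)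
    (hφ : 0 < φ₀) (hL : 1 ≤ L) (hJ : 1 ≤ J) (hg : 8 * (L : ℝ) ≤ g * φ₀) (hgJ : g * J ≤ N)
    (S : Set (Fin n → Bool)) (t : ℝ)
    (ht : kap (cl (Fin n) k) L S < 1 / (J : ℝ) → t = 1) (ht0 : 0 ≤ t) :
    psi (cl (Fin n) (k + 1)) N S ≤
      φ₀ ^ (k + 1) + ((N : ℝ) ^ (-(k / (k + 1) : ℝ))) * (phi S * t) := by
  have : Nonempty (Fin n) := ⟨⟨0, hn⟩⟩
  have hN' : (0 : ℝ) < N := by exact_mod_cast hN
  have hJ' : (0 : ℝ) < J := by exact_mod_cast hJ
  have hphi := phi_nonneg S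
  have hrp : (0 : ℝ) ≤ (N : ℝ) ^ (-(k / (k + 1) : ℝ)) := Real.rpow_nonneg hN'.le _
  have hterm : 0 ≤ ((N : ℝ) ^ (-(k / (k + 1) : ℝ))) * (phi S * t) :=
    mul_nonneg hrp (mul_nonneg hphi ht0)
  have hpsi := psi_le (cl (Fin n) (k + 1)) N hN S
  by_cases h : kap (cl (Fin n) (k + 1)) N S < 39 / 100
  · have hval : psi (cl (Fin n) (k + 1)) N S = phi S ^ (k + 1) := by
      unfold psi
      rw [if_pos h, kap_cl_one]
    rw [hval] at hpsi ⊢
    by_cases hle : phi S ≤ φ₀
    · have : phi S ^ (k + 1) ≤ φ₀ ^ (k + 1) := pow_le_pow_left₀ hphi hle _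
      linarith
    · push Not at hle
      have hsmall : kap (cl (Fin n) k) L S < 1 / (J : ℝ) := by
        by_contra hcon
        push Not at hcon
        have hg' : 8 * (L : ℝ) ≤ g * phi S :=
          hg.trans (mul_le_mul_of_nonneg_left hle.le (Nat.cast_nonneg _))
        have h1 := lemmaG k n g J L hL S hn hg'
        have hk1 : kap (cl (Fin n) k) L S ≤ 1 := kap_le_one _ _ _
        have h2 : (1 - kap (cl (Fin n) k) L S / 2) ^ J ≤ (Real.exp (-(1 / (2 * J)))) ^ J := by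
          apply pow_le_pow_left₀ (by linarith)
          have h3 := Real.add_one_le_exp (-(1 / (2 * (J : ℝ))))
          have h4 : (1 : ℝ) / (2 * J) = (1 / J) / 2 := by
            field_simp
          rw [h4] at h3 ⊢
          linarith
        have h5 : (Real.exp (-(1 / (2 * (J : ℝ))))) ^ J = Real.exp (-(1 / 2)) := by
          rw [← Real.exp_nat_mul]
          congr 1
          field_simp
        have h6 : Real.exp (-(1 / 2 : ℝ)) < 61 / 100 := by
          have h7 : Real.exp (-(1 / 2 : ℝ)) ^ 2 = Real.exp (-1) := by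
            rw [← Real.exp_nat_mul]
            congr 1
            norm_num
          have h8 : Real.exp (-1) < (61 / 100 : ℝ) ^ 2 := by
            rw [Real.exp_neg, inv_lt_comm₀ (Real.exp_pos 1) (by norm_num)]
            have := Real.exp_one_gt_d9
            norm_num
            linarith
          have h9 : 0 < Real.exp (-(1 / 2 : ℝ)) := Real.exp_pos _
          nlinarith
        have h10 : kap (cl (Fin n) (k + 1)) (g * J) S ≤ kap (cl (Fin n) (k + 1)) N S :=
          kap_mono _ S hgJ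
        rw [h5] at h2
        linarith
      have ht1 := ht hsmall
      rw [ht1, mul_one]
      have hpow : phi S ^ k ≤ (N : ℝ) ^ (-(k / (k + 1) : ℝ)) := by
        have hk1 : (0 : ℝ) < (k : ℝ) + 1 := by positivity
        have e1 : phi S ^ k = (phi S ^ (k + 1)) ^ ((k : ℝ) / (k + 1)) := by
          rw [← Real.rpow_natCast (phi S) (k + 1), ← Real.rpow_mul hphi,
            ← Real.rpow_natCast (phi S) k]
          congr 1
          push_cast
          field_simp
        rw [e1]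
        calc (phi S ^ (k + 1)) ^ ((k : ℝ) / (k + 1))
            ≤ (1 / (N : ℝ)) ^ ((k : ℝ) / (k + 1)) :=
              Real.rpow_le_rpow (pow_nonneg hphi _) hpsi (by positivity)
          _ = (N : ℝ) ^ (-(k / (k + 1) : ℝ)) := by
              rw [one_div, Real.inv_rpow hN'.le, Real.rpow_neg hN'.le]
      calc phi S ^ (k + 1) = phi S ^ k * phi S := pow_succ _ _
        _ ≤ (N : ℝ) ^ (-(k / (k + 1) : ℝ)) * phi S := mul_le_mul_of_nonneg_right hpow hphi
        _ ≤ φ₀ ^ (k + 1) + (N : ℝ) ^ (-(k / (k + 1) : ℝ)) * phi S := by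
            have : 0 < φ₀ ^ (k + 1) := pow_pos hφ _
            linarith
  · have hval : psi (cl (Fin n) (k + 1)) N S = 0 := by
      unfold psi
      rw [if_neg h]
    rw [hval]
    have : 0 < φ₀ ^ (k + 1) := pow_pos hφ _
    linarith

theorem lemmaK_finite (k n M N g J L : ℕ) (φ₀ : ℝ) (hk : 1 ≤ k) (hn : 0 < n) (hN : 0 < N)
    (hφ : 0 < φ₀) (hL : 1 ≤ L) (hJ : 1 ≤ J) (hg : 8 * (L : ℝ) ≤ g * φ₀) (hgJ : g * J ≤ N) :
    opn (cl (Fin n) (k + 1)) M (psi (cl (Fin n) (k + 1)) N) Set.univ ≤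
      φ₀ ^ (k + 1) + ((N : ℝ) ^ (-(k / (k + 1) : ℝ))) *
        ((1 + (k + 1) / (2 * n)) ^ M * (1 / J) + M * (k + 1) ^ 2 / (8 * n ^ 2)
          + (1 / 4) ^ L * (1 + 3 * (k + 1) / (2 * n)) ^ M) := by
  classical
  have : Nonempty (Fin n) := ⟨⟨0, hn⟩⟩
  have hN' : (0 : ℝ) < N := by exact_mod_cast hN
  have hJ' : (0 : ℝ) < J := by exact_mod_cast hJ
  have hrp : (0 : ℝ) ≤ (N : ℝ) ^ (-(k / (k + 1) : ℝ)) := Real.rpow_nonneg hN'.le _
  have h1 : opn (cl (Fin n) (k + 1)) M (psi (cl (Fin n) (k + 1)) N) Set.univ ≤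
      opn (cl (Fin n) (k + 1)) M (fun S => φ₀ ^ (k + 1) + ((N : ℝ) ^ (-(k / (k + 1) : ℝ))) *
        (phi S * (if kap (cl (Fin n) k) L S < 1 / (J : ℝ) then 1 else 0))) Set.univ := by
    refine opn_mono _ _ (fun S => ?_) _
    refine psi_cl_le k n N g J L φ₀ hn hN hφ hL hJ hg hgJ S _ ?_ ?_
    · intro h; rw [if_pos h]
    · split_ifs <;> norm_num
  rw [opn_add_fun, opn_const, opn_mul_left] at h1
  have h2 := lemmaV k n M L (1 / (J : ℝ)) hn (by positivity)
  refine h1.trans ?_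
  have h3 := mul_le_mul_of_nonneg_left h2 hrp
  have h4 : opn (cl (Fin n) (k + 1)) M
      (fun S => phi S * (if kap (cl (Fin n) k) L S < 1 / (J : ℝ) then 1 else 0)) Set.univ ≤
    (1 + (k + 1) / (2 * n)) ^ M * (1 / (J : ℝ)) + M * (k + 1) ^ 2 / (8 * n ^ 2)
      + (1 / 4) ^ L * (1 + 3 * (k + 1) / (2 * n)) ^ M := by
    convert h2 using 3
  have h5 := mul_le_mul_of_nonneg_left h4 hrp
  linarith

end Vale.Agent.P170
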