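import Vale.Agent.Lib.P170.Seq
import Vale.Agent.Lib.P170.LemmaK1

/-!
# P170: expected kill probability of nondoomed formulas (asymptotic form of `lemmaK_finite`)
-/

namespace Vale.Agent.P170

open Finset

namespace LemmaKAux

/-- the number of unit steps, `2 ^ L > n` and `L = O(n ^ (1/8))` -/
theorem exists_L (n : ℕ) (hn : 0 < n) (a : ℝ) (ha1 : 1 ≤ a) (ha3 : a ^ 3 = (n : ℝ) ^ (1 / 8 : ℝ)) :
    ∃ L : ℕ, 1 ≤ L ∧ (1 / 4 : ℝ) ^ L ≤ 1 / n ∧ 8 * (L : ℝ) + 1 ≤ 137 * a ^ 3 := by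
  have hn1 : (1 : ℝ) ≤ n := by exact_mod_cast hn
  have hn0 : (0 : ℝ) < n := by linarith
  refine ⟨Nat.log 2 n + 1, Nat.le_add_left 1 _, ?_, ?_⟩
  · have h1 : n < 2 ^ (Nat.log 2 n + 1) := Nat.lt_pow_succ_log_self (by norm_num) n
    have h2 : (n : ℝ) ≤ 2 ^ (Nat.log 2 n + 1) := by exact_mod_cast h1.le
    have h3 : (n : ℝ) ≤ 4 ^ (Nat.log 2 n + 1) :=
      h2.trans (pow_le_pow_left₀ (by norm_num) (by norm_num) _)
    rw [div_pow, one_pow]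
    exact one_div_le_one_div_of_le hn0 h3
  · have h1 : (Nat.log 2 n : ℝ) ≤ Real.logb 2 n := Real.natLog_le_logb n 2
    have h2 : Real.log n ≤ (n : ℝ) ^ (1 / 8 : ℝ) / (1 / 8) :=
      Real.log_le_rpow_div hn0.le (by norm_num)
    have h3 : (1 / 2 : ℝ) < Real.log 2 := by
      have := Real.log_two_gt_d9
      linarith
    have h4 : Real.logb 2 n ≤ 16 * (n : ℝ) ^ (1 / 8 : ℝ) := by
      unfold Real.logb
      rw [div_le_iff₀ (by linarith)]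
      have h5 : 0 ≤ (n : ℝ) ^ (1 / 8 : ℝ) := Real.rpow_nonneg hn0.le _
      nlinarith
    have h6 : 1 ≤ a ^ 3 := one_le_pow₀ ha1
    push_cast
    rw [← ha3] at h4
    linarith

theorem one_add_pow_le_exp {x : ℝ} (hx : 0 ≤ x) (M : ℕ) {y : ℝ} (h : M * x ≤ y) :
    (1 + x) ^ M ≤ Real.exp y := by
  calc (1 + x) ^ M ≤ (Real.exp x) ^ M := by
        apply pow_le_pow_left₀ (by linarith)
        have := Real.add_one_le_exp x
        linarith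
    _ = Real.exp (M * x) := by rw [← Real.exp_nat_mul]
    _ ≤ Real.exp y := Real.exp_le_exp.mpr h

theorem pow_le_exp {q C x : ℝ} (hq : 0 ≤ q) (hx : 0 < x) (M : ℕ) (hM : (M : ℝ) ≤ C * x) :
    (1 + q / (2 * x)) ^ M ≤ Real.exp (q * C / 2) := by
  refine one_add_pow_le_exp (by positivity) M ?_
  calc (M : ℝ) * (q / (2 * x)) ≤ (C * x) * (q / (2 * x)) :=
        mul_le_mul_of_nonneg_right hM (by positivity)
    _ = q * C / 2 := by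
        field_simp

theorem Npow_le {k' : ℕ} (hk : 2 ≤ k') {a ζ y : ℝ} (ha1 : 1 ≤ a) (hζ : 0 < ζ) (hζ1 : ζ ≤ 1)
    (hN : ζ * a ^ 24 ≤ y) : y ^ (-((k' : ℝ) / (k' + 1))) ≤ 1 / (ζ * a ^ 16) := by
  have hk' : (2 : ℝ) ≤ k' := by exact_mod_cast hk
  have ha0 : 0 < a := by linarith
  set θ : ℝ := (k' : ℝ) / (k' + 1) with hθ
  have hθ1 : θ ≤ 1 := by
    rw [hθ, div_le_one (by positivity)]
    linarith
  have hθ2 : 2 / 3 ≤ θ := by
    rw [hθ, div_le_div_iff₀ (by norm_num) (by positivity)]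
    linarith
  have h1 : y ^ (-θ) ≤ (ζ * a ^ 24) ^ (-θ) :=
    Real.rpow_le_rpow_of_nonpos (by positivity) hN (by linarith)
  have h2 : (ζ * a ^ 24) ^ (-θ) = ζ ^ (-θ) * (a ^ 24) ^ (-θ) :=
    Real.mul_rpow hζ.le (by positivity)
  have h3 : ζ ^ (-θ) ≤ 1 / ζ := by
    rw [one_div, ← Real.rpow_neg_one]
    exact Real.rpow_le_rpow_of_exponent_ge hζ hζ1 (by linarith)
  have h4 : (a ^ 24) ^ (-θ) ≤ 1 / a ^ 16 := by
    have h5 : (1 : ℝ) ≤ a ^ 24 := one_le_pow₀ ha1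
    have h6 : (a ^ 24) ^ (-θ) ≤ (a ^ 24) ^ (-(2 / 3) : ℝ) :=
      Real.rpow_le_rpow_of_exponent_le h5 (by linarith)
    have h7 : (a ^ 24) ^ (-(2 / 3) : ℝ) = 1 / a ^ 16 := by
      rw [Real.rpow_neg (by positivity), one_div]
      congr 1
      rw [← Real.rpow_natCast, ← Real.rpow_natCast, ← Real.rpow_mul ha0.le]
      norm_num
    rw [← h7]
    exact h6
  calc y ^ (-θ) ≤ ζ ^ (-θ) * (a ^ 24) ^ (-θ) := by rw [← h2]; exact h1
    _ ≤ (1 / ζ) * (1 / a ^ 16) :=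
        mul_le_mul h3 h4 (by positivity) (by positivity)
    _ = 1 / (ζ * a ^ 16) := by
        rw [one_div_mul_one_div]

theorem phi_pow_le {k' : ℕ} (hk : 2 ≤ k') {a : ℝ} (ha1 : 1 ≤ a) :
    (1 / a ^ 10) ^ (k' + 1) ≤ 1 / a ^ 30 := by
  have ha0 : 0 < a := by linarith
  have h1 : 1 / a ^ 10 ≤ 1 := by
    rw [div_le_one (by positivity)]
    exact one_le_pow₀ ha1
  calc (1 / a ^ 10) ^ (k' + 1) ≤ (1 / a ^ 10) ^ 3 :=
        pow_le_pow_of_le_one (by positivity) h1 (by omega)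
    _ = 1 / a ^ 30 := by
        rw [div_pow, one_pow, ← pow_mul]

theorem J_inv_le {N g : ℕ} (hg : 0 < g) (hgN : g ≤ N) {a ζ : ℝ} (ha1 : 1 ≤ a) (hζ : 0 < ζ)
    (hg2 : (g : ℝ) ≤ 137 * a ^ 13) (hNge : ζ * a ^ 24 ≤ N) :
    1 / ((N / g : ℕ) : ℝ) ≤ 274 / (ζ * a ^ 11) := by
  have ha0 : 0 < a := by linarith
  have hgpos' : (0 : ℝ) < g := by exact_mod_cast hg
  set J : ℕ := N / g with hJ
  have hJ1 : 1 ≤ J := (Nat.one_le_div_iff hg).mpr hgN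
  have hJ1' : (1 : ℝ) ≤ J := by exact_mod_cast hJ1
  have h1 : N < g * (J + 1) := Nat.lt_mul_div_succ N hg
  have h2 : (N : ℝ) ≤ g * (J + 1) := by exact_mod_cast h1.le
  have h3 : (N : ℝ) ≤ 274 * a ^ 13 * J := by
    calc (N : ℝ) ≤ g * (J + 1) := h2
      _ ≤ g * (2 * J) := mul_le_mul_of_nonneg_left (by linarith) hgpos'.le
      _ ≤ (137 * a ^ 13) * (2 * J) := mul_le_mul_of_nonneg_right hg2 (by positivity)
      _ = 274 * a ^ 13 * J := by ring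
  rw [div_le_div_iff₀ (by linarith) (by positivity)]
  have h4 : ζ * a ^ 24 ≤ 274 * a ^ 13 * J := hNge.trans h3
  have h5 : ζ * a ^ 24 = (ζ * a ^ 11) * a ^ 13 := by ring
  have h6 : 274 * a ^ 13 * J = (274 * J) * a ^ 13 := by ring
  rw [h5, h6] at h4
  have h7 := le_of_mul_le_mul_right h4 (by positivity)
  linarith

theorem bracket_le {k' M L : ℕ} {x a ζ C j : ℝ} (hC : 0 < C) (hx : 0 < x) (ha1 : 1 ≤ a)
    (hζ : 0 < ζ) (hζ1 : ζ ≤ 1) (ha24 : a ^ 24 = x) (hM : (M : ℝ) ≤ C * x)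
    (hL4 : (1 / 4 : ℝ) ^ L ≤ 1 / x) (hj0 : 0 ≤ j) (hj : j ≤ 274 / (ζ * a ^ 11)) :
    (1 + ((k' : ℝ) + 1) / (2 * x)) ^ M * j + (M : ℝ) * ((k' : ℝ) + 1) ^ 2 / (8 * x ^ 2)
        + (1 / 4 : ℝ) ^ L * (1 + 3 * ((k' : ℝ) + 1) / (2 * x)) ^ M
      ≤ (274 * Real.exp (((k' : ℝ) + 1) * C / 2) + C * ((k' : ℝ) + 1) ^ 2 / 8
        + Real.exp (3 * ((k' : ℝ) + 1) * C / 2)) / (ζ * a ^ 11) := by
  have ha0 : 0 < a := by linarith
  have hden : 0 < ζ * a ^ 11 := by positivity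
  have ha11 : a ^ 11 ≤ a ^ 24 := pow_le_pow_right₀ ha1 (by norm_num)
  have hden2 : ζ * a ^ 11 ≤ x := by
    calc ζ * a ^ 11 ≤ 1 * a ^ 11 := mul_le_mul_of_nonneg_right hζ1 (by positivity)
      _ = a ^ 11 := one_mul _
      _ ≤ a ^ 24 := ha11
      _ = x := ha24
  have hp1 : (1 + ((k' : ℝ) + 1) / (2 * x)) ^ M ≤ Real.exp (((k' : ℝ) + 1) * C / 2) :=
    pow_le_exp (by positivity) hx M hM
  have hp3 : (1 + 3 * ((k' : ℝ) + 1) / (2 * x)) ^ M ≤ Real.exp (3 * ((k' : ℝ) + 1) * C / 2) :=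
    pow_le_exp (by positivity) hx M hM
  have hb1 : (1 + ((k' : ℝ) + 1) / (2 * x)) ^ M * j
      ≤ Real.exp (((k' : ℝ) + 1) * C / 2) * (274 / (ζ * a ^ 11)) :=
    mul_le_mul hp1 hj hj0 (Real.exp_pos _).le
  have hb2 : (M : ℝ) * ((k' : ℝ) + 1) ^ 2 / (8 * x ^ 2)
      ≤ (C * ((k' : ℝ) + 1) ^ 2 / 8) / (ζ * a ^ 11) := by
    calc (M : ℝ) * ((k' : ℝ) + 1) ^ 2 / (8 * x ^ 2)
        ≤ (C * x) * ((k' : ℝ) + 1) ^ 2 / (8 * x ^ 2) := by gcongr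
      _ = (C * ((k' : ℝ) + 1) ^ 2 / 8) / x := by
          field_simp
      _ ≤ (C * ((k' : ℝ) + 1) ^ 2 / 8) / (ζ * a ^ 11) :=
          div_le_div_of_nonneg_left (by positivity) hden hden2
  have hb3 : (1 / 4 : ℝ) ^ L * (1 + 3 * ((k' : ℝ) + 1) / (2 * x)) ^ M
      ≤ Real.exp (3 * ((k' : ℝ) + 1) * C / 2) / (ζ * a ^ 11) := by
    calc (1 / 4 : ℝ) ^ L * (1 + 3 * ((k' : ℝ) + 1) / (2 * x)) ^ M
        ≤ (1 / x) * Real.exp (3 * ((k' : ℝ) + 1) * C / 2) :=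
          mul_le_mul hL4 hp3 (by positivity) (by positivity)
      _ = Real.exp (3 * ((k' : ℝ) + 1) * C / 2) / x := by ring
      _ ≤ Real.exp (3 * ((k' : ℝ) + 1) * C / 2) / (ζ * a ^ 11) :=
          div_le_div_of_nonneg_left (Real.exp_pos _).le hden hden2
  have hsum : (274 * Real.exp (((k' : ℝ) + 1) * C / 2) + C * ((k' : ℝ) + 1) ^ 2 / 8
        + Real.exp (3 * ((k' : ℝ) + 1) * C / 2)) / (ζ * a ^ 11)
      = Real.exp (((k' : ℝ) + 1) * C / 2) * (274 / (ζ * a ^ 11))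
        + (C * ((k' : ℝ) + 1) ^ 2 / 8) / (ζ * a ^ 11)
        + Real.exp (3 * ((k' : ℝ) + 1) * C / 2) / (ζ * a ^ 11) := by
    ring
  rw [hsum]
  exact add_le_add (add_le_add hb1 hb2) hb3

theorem final_main {a ζ C K m o : ℝ} (ha1 : 1 ≤ a) (hζ : 0 < ζ) (hζ1 : ζ ≤ 1) (hC : 0 < C)
    (hK : 0 < K) (hm0 : 0 ≤ m) (hm : m ≤ (C + 1) * a ^ 24)
    (ho : o ≤ 1 / a ^ 30 + (1 / (ζ * a ^ 16)) * (K / (ζ * a ^ 11))) :
    m * o ≤ ((C + 1) * (1 + K) + 137 * (C + 1)) / (ζ ^ 2 * a ^ 3) := by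
  have ha0 : 0 < a := by linarith
  have hop0 : 0 ≤ 1 / a ^ 30 + (1 / (ζ * a ^ 16)) * (K / (ζ * a ^ 11)) := by positivity
  calc m * o ≤ m * (1 / a ^ 30 + (1 / (ζ * a ^ 16)) * (K / (ζ * a ^ 11))) :=
        mul_le_mul_of_nonneg_left ho hm0
    _ ≤ ((C + 1) * a ^ 24) * (1 / a ^ 30 + (1 / (ζ * a ^ 16)) * (K / (ζ * a ^ 11))) :=
        mul_le_mul_of_nonneg_right hm hop0
    _ = (C + 1) / a ^ 6 + (C + 1) * K / (ζ ^ 2 * a ^ 3) := by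
        field_simp
    _ ≤ (C + 1) / (ζ ^ 2 * a ^ 3) + (C + 1) * K / (ζ ^ 2 * a ^ 3) := by
        refine add_le_add ?_ (le_refl _)
        refine div_le_div_of_nonneg_left (by positivity) (by positivity) ?_
        have h1 : ζ ^ 2 ≤ 1 := pow_le_one₀ hζ.le hζ1
        calc ζ ^ 2 * a ^ 3 ≤ 1 * a ^ 3 := mul_le_mul_of_nonneg_right h1 (by positivity)
          _ = a ^ 3 := one_mul _
          _ ≤ a ^ 6 := pow_le_pow_right₀ ha1 (by norm_num)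
    _ ≤ ((C + 1) * (1 + K) + 137 * (C + 1)) / (ζ ^ 2 * a ^ 3) := by
        rw [← add_div]
        refine div_le_div_of_nonneg_right ?_ (by positivity)
        have : 0 < 137 * (C + 1) := by positivity
        linarith

theorem final_small {a ζ C K m o y : ℝ} (ha1 : 1 ≤ a) (hζ : 0 < ζ) (hC : 0 < C)
    (hK : 0 < K) (hm0 : 0 ≤ m) (hm : m ≤ (C + 1) * a ^ 24) (hy : ζ * a ^ 24 ≤ y)
    (hy2 : y ≤ 137 * a ^ 13) (ho : o ≤ 1 / y) :
    m * o ≤ ((C + 1) * (1 + K) + 137 * (C + 1)) / (ζ ^ 2 * a ^ 3) := by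
  have ha0 : 0 < a := by linarith
  have hy0 : 0 < y := lt_of_lt_of_le (by positivity) hy
  have h3 : ζ * a ^ 11 ≤ 137 := by
    have h4 : (ζ * a ^ 11) * a ^ 13 ≤ 137 * a ^ 13 := by
      calc (ζ * a ^ 11) * a ^ 13 = ζ * a ^ 24 := by ring
        _ ≤ y := hy
        _ ≤ 137 * a ^ 13 := hy2
    exact le_of_mul_le_mul_right h4 (by positivity)
  calc m * o ≤ m * (1 / y) := mul_le_mul_of_nonneg_left ho hm0
    _ ≤ ((C + 1) * a ^ 24) * (1 / (ζ * a ^ 24)) := by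
        refine mul_le_mul hm ?_ (by positivity) (by positivity)
        exact one_div_le_one_div_of_le (by positivity) hy
    _ = (C + 1) / ζ := by
        field_simp
    _ ≤ 137 * (C + 1) / (ζ ^ 2 * a ^ 3) := by
        rw [div_le_div_iff₀ hζ (by positivity)]
        have h5 : ζ * a ^ 3 ≤ 137 := by
          have : a ^ 3 ≤ a ^ 11 := pow_le_pow_right₀ ha1 (by norm_num)
          exact (mul_le_mul_of_nonneg_left this hζ.le).trans h3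
        calc (C + 1) * (ζ ^ 2 * a ^ 3) = ((C + 1) * ζ) * (ζ * a ^ 3) := by ring
          _ ≤ ((C + 1) * ζ) * 137 := mul_le_mul_of_nonneg_left h5 (by positivity)
          _ = 137 * (C + 1) * ζ := by ring
    _ ≤ ((C + 1) * (1 + K) + 137 * (C + 1)) / (ζ ^ 2 * a ^ 3) := by
        refine div_le_div_of_nonneg_right ?_ (by positivity)
        have : 0 < (C + 1) * (1 + K) := by positivity
        linarith

/-- the group size -/
theorem exists_g {a : ℝ} (ha1 : 1 ≤ a) {L : ℕ} (hL1 : 1 ≤ L)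
    (hL8 : 8 * (L : ℝ) + 1 ≤ 137 * a ^ 3) :
    ∃ g : ℕ, 0 < g ∧ 8 * (L : ℝ) ≤ g * (1 / a ^ 10) ∧ (g : ℝ) ≤ 137 * a ^ 13 := by
  have ha0 : 0 < a := by linarith
  have hL1' : (1 : ℝ) ≤ L := by exact_mod_cast hL1
  refine ⟨⌈8 * (L : ℝ) * a ^ 10⌉₊, ?_, ?_, ?_⟩
  · rw [Nat.ceil_pos]
    positivity
  · have := Nat.le_ceil (8 * (L : ℝ) * a ^ 10)
    rw [mul_one_div, le_div_iff₀ (by positivity)]
    exact this
  · have h1 : (⌈8 * (L : ℝ) * a ^ 10⌉₊ : ℝ) < 8 * (L : ℝ) * a ^ 10 + 1 :=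
      Nat.ceil_lt_add_one (by positivity)
    have h3 : 1 ≤ a ^ 10 := one_le_pow₀ ha1
    calc (⌈8 * (L : ℝ) * a ^ 10⌉₊ : ℝ) ≤ 8 * L * a ^ 10 + 1 := h1.le
      _ ≤ 8 * L * a ^ 10 + a ^ 10 := by linarith
      _ = (8 * L + 1) * a ^ 10 := by ring
      _ ≤ (137 * a ^ 3) * a ^ 10 := mul_le_mul_of_nonneg_right hL8 (by positivity)
      _ = 137 * a ^ 13 := by ring

end LemmaKAux

open LemmaKAux

theorem lemmaK (k : ℕ) (hk : 3 ≤ k) (C : ℝ) (hC : 0 < C) :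
    ∃ B : ℝ, 0 < B ∧ ∀ (n M N : ℕ) (ζ : ℝ), 0 < n → 0 < ζ → ζ ≤ 1 → (M : ℝ) ≤ C * n →
      ζ * n ≤ N →
      (M + 1 : ℝ) * opn (cl (Fin n) k) M (psi (cl (Fin n) k) N) Set.univ ≤
        B / (ζ ^ 2 * (n : ℝ) ^ (1 / 8 : ℝ)) := by
  obtain ⟨k', rfl⟩ : ∃ k', k = k' + 1 := ⟨k - 1, by omega⟩
  have hk2 : 2 ≤ k' := by omega
  set K : ℝ := 274 * Real.exp (((k' : ℝ) + 1) * C / 2) + C * ((k' : ℝ) + 1) ^ 2 / 8
    + Real.exp (3 * ((k' : ℝ) + 1) * C / 2) with hK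
  have hKp : 0 < K := by positivity
  refine ⟨(C + 1) * (1 + K) + 137 * (C + 1), by positivity, ?_⟩
  intro n M N ζ hn hζ hζ1 hM hN
  have hn1 : (1 : ℝ) ≤ n := by exact_mod_cast hn
  have hn0 : (0 : ℝ) < n := by linarith
  -- the basic parameter
  obtain ⟨a, ha1, ha24, ha3⟩ : ∃ a : ℝ, 1 ≤ a ∧ a ^ 24 = n ∧ a ^ 3 = (n : ℝ) ^ (1 / 8 : ℝ) := by
    have hpow : ∀ m : ℕ, ((n : ℝ) ^ (1 / 24 : ℝ)) ^ m = (n : ℝ) ^ ((m : ℝ) / 24) := by
      intro m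
      rw [← Real.rpow_natCast, ← Real.rpow_mul hn0.le]
      congr 1
      ring
    refine ⟨(n : ℝ) ^ (1 / 24 : ℝ), Real.one_le_rpow hn1 (by norm_num), ?_, ?_⟩
    · rw [hpow 24]
      norm_num
    · rw [hpow 3]
      norm_num
  rw [← ha3]
  have ha0 : 0 < a := by linarith
  obtain ⟨L, hL1, hL4, hL8⟩ := exists_L n hn a ha1 ha3
  obtain ⟨g, hg0, hg1, hg2⟩ := exists_g ha1 hL1 hL8
  have hNpos : (0 : ℝ) < N := lt_of_lt_of_le (by positivity) hN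
  have hNpos' : 0 < N := by exact_mod_cast hNpos
  have hM1 : (M + 1 : ℝ) ≤ (C + 1) * a ^ 24 := by
    rw [ha24]
    linarith
  have hNge : ζ * a ^ 24 ≤ N := by
    rw [ha24]
    exact hN
  have hM0 : (0 : ℝ) ≤ M + 1 := by positivity
  by_cases hNg : g ≤ N
  · have hJ1 : 1 ≤ N / g := (Nat.one_le_div_iff hg0).mpr hNg
    have hJ1' : (1 : ℝ) ≤ ((N / g : ℕ) : ℝ) := by exact_mod_cast hJ1
    have hfin := lemmaK_finite k' n M N g (N / g) L (1 / a ^ 10) (by omega) hn hNpos'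
      (by positivity) hL1 hJ1 hg1 (Nat.mul_div_le N g)
    refine final_main ha1 hζ hζ1 hC hKp hM0 hM1 (hfin.trans ?_)
    refine add_le_add (phi_pow_le hk2 ha1) ?_
    refine mul_le_mul (Npow_le hk2 ha1 hζ hζ1 hNge) ?_ ?_ (by positivity)
    · exact bracket_le hC hn0 ha1 hζ hζ1 ha24 hM hL4 (by positivity)
        (J_inv_le hg0 hNg ha1 hζ hg2 hNge)
    · positivity
  · push Not at hNg
    have hne : Nonempty (Fin (k' + 1) → Fin n × Bool) := ⟨fun _ => (⟨0, hn⟩, true)⟩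
    have h1 : opn (cl (Fin n) (k' + 1)) M (psi (cl (Fin n) (k' + 1)) N) Set.univ ≤ 1 / N :=
      opn_le_of_le _ M (fun T _ => psi_le _ N hNpos' T)
    have h2 : (N : ℝ) ≤ 137 * a ^ 13 := by
      have : (N : ℝ) ≤ g := by exact_mod_cast hNg.le
      exact this.trans hg2
    exact final_small ha1 hζ hC hKp hM0 hM1 hNge h2 h1

end Vale.Agent.P170
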