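import Mathlib
import Vale.Agent.Lib.P170.Good

/-!
# P170: existence of the limit (core)

The limit theorem, with the statement of `all_sizes` taken as a hypothesis.
-/

namespace Vale.Agent.P170

open Filter Topology

theorem tendsto_nat_rpow_neg : Tendsto (fun n : ℕ => (n : ℝ) ^ (-(1 / 64) : ℝ)) atTop (𝓝 0) :=
  (tendsto_rpow_neg_atTop (by norm_num : (0 : ℝ) < 1 / 64)).comp tendsto_natCast_atTop_atTop

/-- Two different densities cannot both be in the critical window. -/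
theorem gap_eventually {k : ℕ} {δ : ℕ → ℕ → ℝ} (h : Good k δ) {x y η : ℝ} (hxy : x < y)
    (hη : 0 < η) : ∀ᶠ n : ℕ in atTop, η ≤ δ n ⌊x * n⌋₊ → 1 - η < δ n ⌊y * n⌋₊ := by
  by_cases hx : x < 0
  · filter_upwards [eventually_gt_atTop 0] with n hn hle
    exfalso
    have h0 : ⌊x * (n : ℝ)⌋₊ = 0 := by
      apply Nat.floor_of_nonpos
      exact mul_nonpos_of_nonpos_of_nonneg hx.le (Nat.cast_nonneg n)
    rw [h0, h.zero n hn] at hle
    linarith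
  · have hx0 : 0 ≤ x := not_lt.mp hx
    have hy : 0 < y := lt_of_le_of_lt hx0 hxy
    obtain ⟨B, hB, hw⟩ := h.window y η hy hη
    have hd : 0 < (y - x) / 2 := by linarith
    have h1 : Tendsto (fun n : ℕ => B * (n : ℝ) ^ (-(1 / 64) : ℝ)) atTop (𝓝 0) := by
      have := tendsto_nat_rpow_neg.const_mul B
      simpa using this
    have h2 : Tendsto (fun n : ℕ => (y - x) / 2 * (n : ℝ)) atTop atTop :=
      tendsto_natCast_atTop_atTop.const_mul_atTop hd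
    filter_upwards [eventually_gt_atTop 0, h1.eventually (gt_mem_nhds hd),
      h2.eventually_gt_atTop 1] with n hn hb hc hle
    by_contra hcon
    have hcon' : δ n ⌊y * n⌋₊ ≤ 1 - η := not_lt.mp hcon
    have hn' : (0 : ℝ) < n := Nat.cast_pos.mpr hn
    have hM : ⌊x * (n : ℝ)⌋₊ ≤ ⌊y * (n : ℝ)⌋₊ :=
      Nat.floor_le_floor (mul_le_mul_of_nonneg_right hxy.le hn'.le)
    have hC : ((⌊y * (n : ℝ)⌋₊ : ℕ) : ℝ) ≤ y * n := Nat.floor_le (mul_nonneg hy.le hn'.le)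
    have h3 := hw n _ _ hn hM hC hle hcon'
    have h4 : ((⌊x * (n : ℝ)⌋₊ : ℕ) : ℝ) ≤ x * n := Nat.floor_le (mul_nonneg hx0 hn'.le)
    have h5 : y * n < ((⌊y * (n : ℝ)⌋₊ : ℕ) : ℝ) + 1 := Nat.lt_floor_add_one _
    have h6 : (n : ℝ) ^ (1 - 1 / 64 : ℝ) = (n : ℝ) ^ (-(1 / 64) : ℝ) * n := by
      rw [sub_eq_neg_add, Real.rpow_add hn', Real.rpow_one]
    rw [h6] at h3
    have h7 : B * ((n : ℝ) ^ (-(1 / 64) : ℝ) * n) < (y - x) / 2 * n := by
      rw [← mul_assoc]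
      exact mul_lt_mul_of_pos_right hb hn'
    nlinarith

theorem limit_of_all_sizes {k : ℕ} {δ : ℕ → ℕ → ℝ} (h : Good k δ)
    (hall : ∀ C : ℝ, 0 < C → ∃ K : ℝ, 0 < K ∧ ∀ (n : ℕ) (y ε : ℝ), 0 < n → y ≤ C → 0 < ε →
      δ n ⌊y * n⌋₊ ≤ 1 / 4 →
      ∀ᶠ N : ℕ in atTop, δ N ⌊(y - K * (n : ℝ) ^ (-(1 / 64) : ℝ) - ε) * N⌋₊ ≤ 1 / 4)
    (hup : ∃ U : ℝ, Tendsto (fun n : ℕ => δ n ⌊U * n⌋₊) atTop (𝓝 1))
    (hlow : ∃ c₀ : ℝ, 0 < c₀ ∧ Tendsto (fun n : ℕ => δ n ⌊c₀ * n⌋₊) atTop (𝓝 0)) :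
    ∃ α : ℝ, 0 < α ∧ (∀ c, c < α → Tendsto (fun n : ℕ => δ n ⌊c * n⌋₊) atTop (𝓝 0)) ∧
      (∀ c, α < c → Tendsto (fun n : ℕ => δ n ⌊c * n⌋₊) atTop (𝓝 1)) := by
  obtain ⟨U, hU⟩ := hup
  obtain ⟨c₀, hc₀, hc⟩ := hlow
  have hmono : ∀ (n : ℕ) {x y : ℝ}, x ≤ y → δ n ⌊x * n⌋₊ ≤ δ n ⌊y * n⌋₊ := fun n x y hxy =>
    h.mono n (Nat.floor_le_floor (mul_le_mul_of_nonneg_right hxy (Nat.cast_nonneg n)))
  let S : Set ℝ := {y : ℝ | ∃ᶠ n : ℕ in atTop, δ n ⌊y * n⌋₊ ≤ 1 / 4}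
  have hc₀S : c₀ ∈ S := by
    apply Eventually.frequently
    filter_upwards [hc.eventually (gt_mem_nhds (by norm_num : (0 : ℝ) < 1 / 4))] with n hn
    exact hn.le
  have hbdd : ∀ y ∈ S, y ≤ U := by
    intro y hy
    by_contra hcon
    have hUy : U < y := not_le.mp hcon
    apply hy
    filter_upwards [hU.eventually (lt_mem_nhds (by norm_num : (1 / 4 : ℝ) < 1))] with n hn
    exact not_le.mpr (lt_of_lt_of_le hn (hmono n hUy.le))
  have hBdd : BddAbove S := ⟨U, hbdd⟩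
  have hUpos : 0 < U := lt_of_lt_of_le hc₀ (hbdd c₀ hc₀S)
  refine ⟨sSup S, lt_of_lt_of_le hc₀ (le_csSup hBdd hc₀S), ?_, ?_⟩
  · intro c hcα
    obtain ⟨y, hyS, hcy⟩ := exists_lt_of_lt_csSup ⟨c₀, hc₀S⟩ hcα
    obtain ⟨K, hK, hKall⟩ := hall U hUpos
    have hgap : 0 < (y - c) / 3 := by linarith
    have h1 : Tendsto (fun n : ℕ => K * (n : ℝ) ^ (-(1 / 64) : ℝ)) atTop (𝓝 0) := by
      have := tendsto_nat_rpow_neg.const_mul K
      simpa using this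
    obtain ⟨n, hn, hn0, hnK⟩ := (hyS.and_eventually ((eventually_gt_atTop 0).and
      (h1.eventually (gt_mem_nhds hgap)))).exists
    have h2 := hKall n y ((y - c) / 3) hn0 (hbdd y hyS) hgap hn
    set c' : ℝ := y - K * (n : ℝ) ^ (-(1 / 64) : ℝ) - (y - c) / 3 with hc'
    have hcc' : c < c' := by
      rw [hc']; linarith
    rw [Metric.tendsto_nhds]
    intro ε hε
    have hη : 0 < min ε (1 / 4) := lt_min hε (by norm_num)
    filter_upwards [h2, gap_eventually h hcc' hη] with N hN1 hN2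
    rw [Real.dist_eq, sub_zero, abs_of_nonneg (h.nonneg _ _)]
    by_contra hcon
    have h3 : min ε (1 / 4) ≤ δ N ⌊c * N⌋₊ := (min_le_left _ _).trans (not_lt.mp hcon)
    have h4 := hN2 h3
    have h5 : min ε (1 / 4) ≤ 1 / 4 := min_le_right _ _
    linarith
  · intro c hαc
    have hmid : sSup S < (sSup S + c) / 2 := by linarith
    have hmid2 : (sSup S + c) / 2 < c := by linarith
    have hnot : (sSup S + c) / 2 ∉ S := fun hmem => absurd (le_csSup hBdd hmem) (not_le.mpr hmid)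
    have hev : ∀ᶠ n : ℕ in atTop, ¬ δ n ⌊((sSup S + c) / 2) * n⌋₊ ≤ 1 / 4 := by
      have := hnot
      simpa [S, Filter.Frequently] using this
    rw [Metric.tendsto_nhds]
    intro ε hε
    have hη : 0 < min ε (1 / 4) := lt_min hε (by norm_num)
    filter_upwards [hev, gap_eventually h hmid2 hη] with N hN1 hN2
    rw [Real.dist_eq, abs_sub_comm, abs_of_nonneg (by linarith [h.le_one N ⌊c * N⌋₊])]
    have h3 : min ε (1 / 4) ≤ δ N ⌊((sSup S + c) / 2) * N⌋₊ :=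
      (min_le_right _ _).trans (not_le.mp hN1).le
    have h4 := hN2 h3
    have h5 : min ε (1 / 4) ≤ ε := min_le_left _ _
    linarith

end Vale.Agent.P170
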