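import Vale.Agent.Lib.P170.Seq
import Vale.Agent.Lib.P170.Binomial

/-!
# P170: pasting two blocks of variables
-/

namespace Vale.Agent.P170

open Finset

section general

variable {Ω : Type*} {ι κ : Type*} [Fintype ι] [Fintype κ]

/-- the family of disjunctions of `k` literals -/
theorem paste_op_union_ind (B : ι → Set Ω) (k : ℕ) (T : Set Ω) :
    op (fun D : Fin k → ι => ⋃ i, B (D i)) ind T = (avg fun l => ind (T ∩ B l)) ^ k := by
  classical
  have h : ∀ D : Fin k → ι, ind (T ∩ ⋃ i, B (D i)) = ∏ i, ind (T ∩ B (D i)) := by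
    intro D
    by_cases hD : ∀ i, T ∩ B (D i) = ∅
    · rw [Set.inter_iUnion]
      have : (⋃ i, T ∩ B (D i)) = ∅ := by
        rw [Set.iUnion_eq_empty]
        exact hD
      rw [this, ind_empty]
      symm
      apply Finset.prod_eq_one
      intro i _
      rw [hD i, ind_empty]
    · push Not at hD
      obtain ⟨i, hi⟩ := hD
      rw [Finset.prod_eq_zero (Finset.mem_univ i) (ind_of_nonempty hi)]
      apply ind_of_nonempty
      obtain ⟨σ, hσ⟩ := hi
      exact ⟨σ, hσ.1, Set.mem_iUnion.2 ⟨i, hσ.2⟩⟩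
  unfold op
  simp only [h]
  unfold avg
  rw [div_pow, Fintype.sum_pow]
  simp

theorem paste_opn_op_comm (A : ι → Set Ω) (B : κ → Set Ω) (M : ℕ) (f : Set Ω → ℝ) :
    opn A M (op B f) = op B (opn A M f) := by
  induction M with
  | zero => rfl
  | succ M ih => rw [opn_succ, ih, op_comm, opn_succ]

end general

/-- clauses of a block, as constraints on all variables -/
def pblk {V W : Type*} (e : V → W) (k : ℕ) (D : Fin k → V × Bool) : Set (W → Bool) :=
  {σ | ∃ i, σ (e (D i).1) = (D i).2}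

theorem pblk_eq_union {V W : Type*} (e : V → W) (k : ℕ) :
    pblk e k = fun D => ⋃ i, {σ : W → Bool | σ (e (D i).1) = (D i).2} := by
  funext D
  ext σ
  simp [pblk]

theorem cl_eq_pblk {V : Type*} (k : ℕ) : cl V k = pblk id k := rfl

theorem inter_pblk {V W : Type*} (e : V → W) (k m : ℕ) (F : Fin m → Fin k → V × Bool) :
    (⋂ i, pblk e k (F i)) = {σ : W → Bool | (fun v => σ (e v)) ∈ ⋂ i, cl V k (F i)} := by
  ext σ
  simp [pblk, cl]

/-- the product structure -/
theorem one_sub_ind_block {a b : ℕ} (S₁ : Set (Fin a → Bool)) (S₂ : Set (Fin b → Bool)) :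
    1 - ind ({σ : Fin (a + b) → Bool | (fun v => σ (Fin.castAdd b v)) ∈ S₁} ∩
      {σ | (fun v => σ (Fin.natAdd a v)) ∈ S₂}) = (1 - ind S₁) * (1 - ind S₂) := by
  rcases S₁.eq_empty_or_nonempty with rfl | ⟨x, hx⟩
  · have : ({σ : Fin (a + b) → Bool | (fun v => σ (Fin.castAdd b v)) ∈ (∅ : Set (Fin a → Bool))} ∩
      {σ | (fun v => σ (Fin.natAdd a v)) ∈ S₂}) = ∅ := by
      ext σ; simp
    rw [this, ind_empty, ind_empty]
    ring
  · rcases S₂.eq_empty_or_nonempty with rfl | ⟨y, hy⟩
    · have : ({σ : Fin (a + b) → Bool | (fun v => σ (Fin.castAdd b v)) ∈ S₁} ∩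
        {σ | (fun v => σ (Fin.natAdd a v)) ∈ (∅ : Set (Fin b → Bool))}) = ∅ := by
        ext σ; simp
      rw [this, ind_empty, ind_empty]
      ring
    · rw [ind_of_nonempty ⟨x, hx⟩, ind_of_nonempty ⟨y, hy⟩, ind_of_nonempty]
      · ring
      · refine ⟨Fin.append x y, ?_, ?_⟩
        · simpa using hx
        · simpa using hy

theorem one_sub_opn_block (k a b i j : ℕ) [Nonempty (Fin a)] [Nonempty (Fin b)] :
    1 - opn (pblk (Fin.castAdd b : Fin a → Fin (a + b)) k) i
      (opn (pblk (Fin.natAdd a : Fin b → Fin (a + b)) k) j ind) Set.univ =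
      (1 - del k a i) * (1 - del k b j) := by
  rw [opn_eq_avg]
  have h1 : ∀ F : Fin i → Fin k → Fin a × Bool,
      opn (pblk (Fin.natAdd a : Fin b → Fin (a + b)) k) j ind
        (Set.univ ∩ ⋂ r, pblk (Fin.castAdd b : Fin a → Fin (a + b)) k (F r)) =
      avg fun G : Fin j → Fin k → Fin b × Bool =>
        (1 - (1 - ind (⋂ r, cl (Fin a) k (F r))) * (1 - ind (⋂ r, cl (Fin b) k (G r)))) := by
    intro F
    rw [opn_eq_avg]
    congr 1
    funext G
    rw [← one_sub_ind_block, sub_sub_cancel, Set.univ_inter, inter_pblk, inter_pblk]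
  simp only [h1]
  have h2 : ∀ F : Fin i → Fin k → Fin a × Bool, (avg fun G : Fin j → Fin k → Fin b × Bool =>
        (1 - (1 - ind (⋂ r, cl (Fin a) k (F r))) * (1 - ind (⋂ r, cl (Fin b) k (G r))))) =
      1 - (1 - ind (⋂ r, cl (Fin a) k (F r))) * (1 - del k b j) := by
    intro F
    rw [avg_sub, avg_const, avg_mul_left, avg_sub, avg_const, del, kap_eq_avg]
    simp only [Set.univ_inter]
  simp only [h2]
  have h3 : del k a i = avg fun F : Fin i → Fin k → Fin a × Bool =>
      ind (⋂ r, cl (Fin a) k (F r)) := by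
    rw [del, kap_eq_avg]
    simp only [Set.univ_inter]
  rw [avg_sub, avg_const, avg_mul_right, avg_sub, avg_const, h3]
  ring

/-- one clause on all variables, compared with one clause on a random block -/
theorem op_cl_le_mix (k a b : ℕ) (ha : 0 < a) (hb : 0 < b) (T : Set (Fin (a + b) → Bool)) :
    op (cl (Fin (a + b)) k) ind T ≤
      (a / (a + b) : ℝ) * op (pblk (Fin.castAdd b : Fin a → Fin (a + b)) k) ind T +
      (1 - a / (a + b) : ℝ) * op (pblk (Fin.natAdd a : Fin b → Fin (a + b)) k) ind T := by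
  have hab : (0 : ℝ) < a + b := by positivity
  have ha' : (0 : ℝ) < a := by exact_mod_cast ha
  have hb' : (0 : ℝ) < b := by exact_mod_cast hb
  rw [cl_eq_pblk, pblk_eq_union, pblk_eq_union, pblk_eq_union, paste_op_union_ind
    (fun l : Fin (a + b) × Bool => {σ : Fin (a + b) → Bool | σ (id l.1) = l.2}), paste_op_union_ind
    (fun l : Fin a × Bool => {σ : Fin (a + b) → Bool | σ (Fin.castAdd b l.1) = l.2}), paste_op_union_ind
    (fun l : Fin b × Bool => {σ : Fin (a + b) → Bool | σ (Fin.natAdd a l.1) = l.2})]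
  set x := avg fun l : Fin a × Bool =>
    ind (T ∩ {σ : Fin (a + b) → Bool | σ (Fin.castAdd b l.1) = l.2}) with hx
  set y := avg fun l : Fin b × Bool =>
    ind (T ∩ {σ : Fin (a + b) → Bool | σ (Fin.natAdd a l.1) = l.2}) with hy
  have hxy : (avg fun l : Fin (a + b) × Bool =>
      ind (T ∩ {σ : Fin (a + b) → Bool | σ (id l.1) = l.2})) =
      (a / (a + b) : ℝ) * x + (1 - a / (a + b) : ℝ) * y := by
    rw [hx, hy, avg, avg, avg, Fintype.sum_prod_type, Fintype.sum_prod_type,
      Fintype.sum_prod_type, Fin.sum_univ_add]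
    simp only [Fintype.card_prod, Fintype.card_fin, Fintype.card_bool, id]
    push_cast
    field_simp
    ring
  rw [hxy]
  have hx0 : 0 ≤ x := avg_nonneg fun _ => ind_nonneg _
  have hy0 : 0 ≤ y := avg_nonneg fun _ => ind_nonneg _
  have hp : (0 : ℝ) ≤ a / (a + b) := by positivity
  have hp' : (0 : ℝ) ≤ 1 - a / (a + b) := by
    rw [sub_nonneg, div_le_one hab]; linarith
  have hconv := (convexOn_pow (𝕜 := ℝ) k).2 (Set.mem_Ici.2 hx0) (Set.mem_Ici.2 hy0) hp hp'
    (by ring)
  simpa [smul_eq_mul] using hconv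

/-- the probability of unsatisfiability is at most that of the mixture of the two blocks -/
theorem kap_le_mix (k a b M : ℕ) (ha : 0 < a) (hb : 0 < b) (T : Set (Fin (a + b) → Bool)) :
    kap (cl (Fin (a + b)) k) M T ≤
      ((fun g : Set (Fin (a + b) → Bool) → ℝ => fun T =>
        (a / (a + b) : ℝ) * op (pblk (Fin.castAdd b : Fin a → Fin (a + b)) k) g T +
        (1 - a / (a + b) : ℝ) * op (pblk (Fin.natAdd a : Fin b → Fin (a + b)) k) g T)^[M] ind) T := by
  have hab : (0 : ℝ) < a + b := by positivity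
  have hp : (0 : ℝ) ≤ a / (a + b) := by positivity
  have hp' : (0 : ℝ) ≤ 1 - a / (a + b) := by
    rw [sub_nonneg, div_le_one hab]
    have : (0 : ℝ) ≤ b := Nat.cast_nonneg b
    linarith
  induction M generalizing T with
  | zero => exact le_of_eq rfl
  | succ M ih =>
    rw [Function.iterate_succ']
    simp only [Function.comp]
    have h1 : kap (cl (Fin (a + b)) k) (M + 1) T ≤
        opn (cl (Fin (a + b)) k) M (fun T =>
          (a / (a + b) : ℝ) * op (pblk (Fin.castAdd b : Fin a → Fin (a + b)) k) ind T +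
          (1 - a / (a + b) : ℝ) * op (pblk (Fin.natAdd a : Fin b → Fin (a + b)) k) ind T) T := by
      rw [kap, opn_succ']
      exact opn_mono _ M (op_cl_le_mix k a b ha hb) T
    refine h1.trans ?_
    rw [opn_add_fun, opn_mul_left, opn_mul_left, paste_opn_op_comm, paste_opn_op_comm]
    have h2 := op_mono_on (pblk (Fin.castAdd b : Fin a → Fin (a + b)) k) (S := T)
      (fun T _ => ih T)
    have h3 := op_mono_on (pblk (Fin.natAdd a : Fin b → Fin (a + b)) k) (S := T)
      (fun T _ => ih T)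
    exact add_le_add (mul_le_mul_of_nonneg_left h2 hp) (mul_le_mul_of_nonneg_left h3 hp')

theorem paste (k a b M : ℕ) (ha : 0 < a) (hb : 0 < b) :
    ∑ j ∈ range (M + 1), (M.choose j : ℝ) * (a / (a + b) : ℝ) ^ j *
      (1 - a / (a + b) : ℝ) ^ (M - j) * ((1 - del k a j) * (1 - del k b (M - j)))
        ≤ 1 - del k (a + b) M := by
  have : Nonempty (Fin a) := ⟨⟨0, ha⟩⟩
  have : Nonempty (Fin b) := ⟨⟨0, hb⟩⟩
  have h := kap_le_mix k a b M ha hb Set.univ
  rw [mix_iterate] at h
  have hsum : ∑ j ∈ range (M + 1), (M.choose j : ℝ) * (a / (a + b) : ℝ) ^ j *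
      (1 - a / (a + b) : ℝ) ^ (M - j) = 1 := by
    have := add_pow (a / (a + b) : ℝ) (1 - a / (a + b) : ℝ) M
    rw [add_sub_cancel, one_pow] at this
    refine Eq.trans (Finset.sum_congr rfl (fun j _ => ?_)) this.symm
    ring
  have e : ∑ j ∈ range (M + 1), (M.choose j : ℝ) * (a / (a + b) : ℝ) ^ j *
      (1 - a / (a + b) : ℝ) ^ (M - j) * ((1 - del k a j) * (1 - del k b (M - j))) +
      ∑ j ∈ range (M + 1), (M.choose j : ℝ) * (a / (a + b) : ℝ) ^ j *
      (1 - a / (a + b) : ℝ) ^ (M - j) *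
        opn (pblk (Fin.castAdd b : Fin a → Fin (a + b)) k) j
      (opn (pblk (Fin.natAdd a : Fin b → Fin (a + b)) k) (M - j) ind) Set.univ = 1 := by
    refine Eq.trans ?_ hsum
    rw [← Finset.sum_add_distrib]
    refine Finset.sum_congr rfl (fun j _ => ?_)
    rw [← one_sub_opn_block]
    ring
  rw [del]
  linarith

end Vale.Agent.P170
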