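import Vale.Agent.Lib.P170.Op
import Vale.Agent.Lib.P170.Binomial

/-!
# P170: restriction to fewer variables

A random formula on `n` variables contains the formula of the clauses using only the first `m`
variables, which is a random formula on `m` variables with a binomial number of clauses.
-/

namespace Vale.Agent.P170

open Finset

/-- embedding of the literals of the first `m` variables -/
def embLit {m n : ℕ} (hmn : m ≤ n) (l : Fin m × Bool) : Fin n × Bool :=
  (Fin.castLE hmn l.1, l.2)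

theorem embLit_injective {m n : ℕ} (hmn : m ≤ n) : Function.Injective (embLit hmn) := by
  rintro ⟨a, b⟩ ⟨c, d⟩ h
  unfold embLit at h
  simp only [Prod.mk.injEq] at h
  obtain ⟨h1, h2⟩ := h
  exact Prod.ext (Fin.castLE_injective hmn h1) h2

/-- embedding of the clauses on the first `m` variables -/
def embCl {k m n : ℕ} (hmn : m ≤ n) (D : Fin k → Fin m × Bool) : Fin k → Fin n × Bool :=
  fun i => embLit hmn (D i)

theorem embCl_injective {k m n : ℕ} (hmn : m ≤ n) :
    Function.Injective (embCl (k := k) hmn) := by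
  intro D E h
  funext i
  exact embLit_injective hmn (congrFun h i)

theorem mem_cl_emb {k m n : ℕ} (hmn : m ≤ n) (D : Fin k → Fin m × Bool) (σ : Fin n → Bool) :
    σ ∈ cl (Fin n) k (embCl hmn D) ↔ (fun i => σ (Fin.castLE hmn i)) ∈ cl (Fin m) k D :=
  Iff.rfl

theorem restrict_step {k m n : ℕ} (hm : 0 < m) (hmn : m ≤ n)
    (g : (Fin k → Fin n × Bool) → ℝ) (b : (Fin k → Fin m × Bool) → ℝ) (a : ℝ)
    (hg : ∀ D, a ≤ g D) (hb : ∀ D, b D ≤ g (embCl hmn D)) :
    (1 - (m / n : ℝ) ^ k) * a + (m / n : ℝ) ^ k * avg b ≤ avg g := by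
  have hn : 0 < n := hm.trans_le hmn
  have hn' : (0 : ℝ) < n := by exact_mod_cast hn
  have hm' : (0 : ℝ) < m := by exact_mod_cast hm
  have c1 : (Fintype.card (Fin k → Fin n × Bool) : ℝ) = (n * 2 : ℝ) ^ k := by
    simp
  have c2 : (Fintype.card (Fin k → Fin m × Bool) : ℝ) = (m * 2 : ℝ) ^ k := by
    simp
  have h1 : ∑ D : Fin k → Fin m × Bool, (b D - a) ≤
      ∑ D : Fin k → Fin n × Bool, (g D - a) := by
    calc ∑ D : Fin k → Fin m × Bool, (b D - a)
        ≤ ∑ D : Fin k → Fin m × Bool, (g (embCl hmn D) - a) :=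
          Finset.sum_le_sum fun D _ => by have := hb D; linarith
      _ = ∑ D ∈ Finset.univ.map ⟨embCl (k := k) hmn, embCl_injective hmn⟩, (g D - a) := by
          rw [Finset.sum_map]; rfl
      _ ≤ ∑ D : Fin k → Fin n × Bool, (g D - a) :=
          Finset.sum_le_sum_of_subset_of_nonneg (Finset.subset_univ _)
            fun D _ _ => by have := hg D; linarith
  rw [Finset.sum_sub_distrib, Finset.sum_sub_distrib, Finset.sum_const, Finset.sum_const,
    Finset.card_univ, Finset.card_univ, nsmul_eq_mul, nsmul_eq_mul, c1, c2] at h1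
  unfold avg
  rw [c1, c2, le_div_iff₀ (by positivity)]
  have e1 : (m / n : ℝ) ^ k * (n * 2 : ℝ) ^ k = (m * 2 : ℝ) ^ k := by
    rw [← mul_pow]; congr 1; field_simp
  have e2 : (m / n : ℝ) ^ k * ((∑ i, b i) / (m * 2 : ℝ) ^ k) * (n * 2 : ℝ) ^ k = ∑ i, b i := by
    rw [← e1]; field_simp
  calc ((1 - (m / n : ℝ) ^ k) * a + (m / n : ℝ) ^ k * ((∑ i, b i) / (m * 2 : ℝ) ^ k)) *
        (n * 2 : ℝ) ^ k
      = ((n * 2 : ℝ) ^ k - (m / n : ℝ) ^ k * (n * 2 : ℝ) ^ k) * a +
        (m / n : ℝ) ^ k * ((∑ i, b i) / (m * 2 : ℝ) ^ k) * (n * 2 : ℝ) ^ k := by ring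
    _ = ((n * 2 : ℝ) ^ k - (m * 2 : ℝ) ^ k) * a + ∑ i, b i := by rw [e2, e1]
    _ ≤ ∑ i, g i := by linarith

theorem restrict_aux (k m n : ℕ) (hm : 0 < m) (hmn : m ≤ n) (M : ℕ)
    (S : Set (Fin m → Bool)) (T : Set (Fin n → Bool))
    (hST : ∀ σ ∈ T, (fun i => σ (Fin.castLE hmn i)) ∈ S) :
    lkap (cl (Fin m) k) ((m / n : ℝ) ^ k) M S ≤ kap (cl (Fin n) k) M T := by
  have hn : 0 < n := hm.trans_le hmn
  have hn' : (0 : ℝ) < n := by exact_mod_cast hn
  have hm' : (0 : ℝ) < m := by exact_mod_cast hm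
  have : Nonempty (Fin k → Fin n × Bool) := ⟨fun _ => (⟨0, hn⟩, true)⟩
  induction M generalizing S T with
  | zero =>
    rw [lkap_zero, kap_zero]
    rcases S.eq_empty_or_nonempty with rfl | hS
    · have hT : T = ∅ := by
        ext σ
        simp only [Set.mem_empty_iff_false, iff_false]
        intro h
        exact hST σ h
      rw [hT, ind_empty, ind_empty]
    · rw [ind_of_nonempty hS]; exact ind_nonneg _
  | succ M ih =>
    rw [lkap_succ, kap_succ]
    refine restrict_step hm hmn _ _ _ (fun D => ?_) (fun D => ?_)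
    · exact ih S (T ∩ cl (Fin n) k D) fun σ hσ => hST σ hσ.1
    · exact ih (S ∩ cl (Fin m) k D) (T ∩ cl (Fin n) k (embCl hmn D))
        fun σ hσ => ⟨hST σ hσ.1, (mem_cl_emb hmn D σ).1 hσ.2⟩

theorem restrict (k m n M : ℕ) (hm : 0 < m) (hmn : m ≤ n) :
    ∑ j ∈ range (M + 1), (M.choose j : ℝ) * ((m / n : ℝ) ^ k) ^ j *
      (1 - (m / n : ℝ) ^ k) ^ (M - j) * del k m j ≤ del k n M := by
  have h := restrict_aux k m n hm hmn M Set.univ Set.univ fun _ _ => Set.mem_univ _
  rw [lkap_eq_sum] at h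
  exact h

end Vale.Agent.P170
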