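import Vale.Agent.Lib.P170.Seq
import Vale.Agent.Lib.P170.Defs

/-!
# P170: transfer between the proper clause model and the independent literal model
-/

namespace Vale.Agent.P170

open Filter Topology Finset

section general

variable {Ω : Type*} {ι κ : Type*} [Fintype ι] [Fintype κ]

/-- Passing to a subfamily. -/
theorem opn_ge_sub (A : ι → Set Ω) (j : κ → ι) (hj : Function.Injective j) [Nonempty ι]
    (m : ℕ) (f : Set Ω → ℝ) (hf : ∀ T, 0 ≤ f T) (S : Set Ω) :
    ((Fintype.card κ : ℝ) / Fintype.card ι) ^ m * opn (fun x => A (j x)) m f S ≤ opn A m f S := by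
  have hι : (0 : ℝ) < Fintype.card ι := by exact_mod_cast Fintype.card_pos
  induction m generalizing S with
  | zero => simp [opn_zero]
  | succ m ih =>
    rw [opn_succ_apply, opn_succ_apply, pow_succ]
    set r : ℝ := (Fintype.card κ : ℝ) / Fintype.card ι with hr
    have h1 : r * (avg fun x : κ => opn (fun x => A (j x)) m f (S ∩ A (j x))) =
        (∑ x : κ, opn (fun x => A (j x)) m f (S ∩ A (j x))) / Fintype.card ι := by
      unfold avg
      rw [hr]
      rcases isEmpty_or_nonempty κ with hκ | hκ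
      · simp
      · have hκ' : (Fintype.card κ : ℝ) ≠ 0 := by
          have : 0 < Fintype.card κ := Fintype.card_pos
          positivity
        field_simp
    have h2 : r ^ m * r * (avg fun x : κ => opn (fun x => A (j x)) m f (S ∩ A (j x))) =
        (∑ x : κ, r ^ m * opn (fun x => A (j x)) m f (S ∩ A (j x))) / Fintype.card ι := by
      rw [mul_assoc, h1, ← Finset.mul_sum, mul_div_assoc]
    rw [h2]
    unfold avg
    refine div_le_div_of_nonneg_right ?_ hι.le
    calc (∑ x : κ, r ^ m * opn (fun x => A (j x)) m f (S ∩ A (j x)))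
        ≤ ∑ x : κ, opn A m f (S ∩ A (j x)) := Finset.sum_le_sum fun x _ => ih _
      _ = ∑ i ∈ Finset.univ.map ⟨j, hj⟩, opn A m f (S ∩ A i) := by
          rw [Finset.sum_map]; rfl
      _ ≤ ∑ i, opn A m f (S ∩ A i) :=
          Finset.sum_le_sum_of_subset_of_nonneg (Finset.subset_univ _)
            fun i _ _ => opn_nonneg A m hf _

/-- Passing to a quotient family. -/
theorem opn_quot {τ : Type*} [Fintype τ] [Nonempty τ] (B : κ → Set Ω) (e : ι ≃ κ × τ)
    (m : ℕ) (f : Set Ω → ℝ) (S : Set Ω) :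
    opn (fun x => B (e x).1) m f S = opn B m f S := by
  induction m generalizing S with
  | zero => rfl
  | succ m ih =>
    rw [opn_succ_apply, opn_succ_apply]
    have h1 : (fun x : ι => opn (fun x => B (e x).1) m f (S ∩ B (e x).1)) =
        fun x : ι => (fun y : κ × τ => opn B m f (S ∩ B y.1)) (e x) := by
      funext x
      exact ih _
    rw [h1, avg_equiv e (fun y : κ × τ => opn B m f (S ∩ B y.1)), avg_prod]
    congr 1
    funext i
    change avg (fun _ : τ => opn B m f (S ∩ B i)) = opn B m f (S ∩ B i)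
    exact avg_const _

end general

section clauses

/-- Tuples of literals on distinct variables. -/
def ProperTuple (k n : ℕ) : Type :=
  {D : Fin k → Fin n × Bool // Function.Injective fun i => (D i).1}

noncomputable instance (k n : ℕ) : Fintype (ProperTuple k n) := by
  classical
  unfold ProperTuple
  infer_instance

noncomputable instance (k n : ℕ) : Fintype (ProperClause k n) := by
  classical
  unfold ProperClause
  exact Fintype.ofFinite _

/-- The literals of a tuple. -/
def ProperTuple.fn {k n : ℕ} (D : ProperTuple k n) : Fin k → Fin n × Bool := D.1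

theorem ProperTuple.inj {k n : ℕ} (D : ProperTuple k n) :
    Function.Injective fun i => (D.fn i).1 := D.2

theorem ProperTuple.ext {k n : ℕ} {D D' : ProperTuple k n} (h : ∀ i, D.fn i = D'.fn i) :
    D = D' := Subtype.ext (funext h)

/-- The set of literals of a clause. -/
def ProperClause.set {k n : ℕ} (E : ProperClause k n) : Finset (Fin n × Bool) := E.1

theorem ProperClause.card_set {k n : ℕ} (E : ProperClause k n) : E.set.card = k := E.2.1

theorem ProperClause.inj {k n : ℕ} (E : ProperClause k n) {a b : Fin n × Bool}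
    (ha : a ∈ E.set) (hb : b ∈ E.set) (h : a.1 = b.1) : a = b := E.2.2 ha hb h

theorem ProperClause.ext {k n : ℕ} {E E' : ProperClause k n} (h : ∀ l, l ∈ E.set ↔ l ∈ E'.set) :
    E = E' := Subtype.ext (Finset.ext h)

/-- The clause of a tuple. -/
noncomputable def toClause {k n : ℕ} (D : ProperTuple k n) : ProperClause k n := by
  classical
  exact ⟨Finset.univ.image D.1, by
    rw [Finset.card_image_of_injective _ (fun i j h => D.2 (congrArg Prod.fst h))]
    simp, by
    intro a ha b hb hab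
    simp only [Finset.coe_image, Finset.coe_univ, Set.image_univ, Set.mem_range] at ha hb
    obtain ⟨i, rfl⟩ := ha
    obtain ⟨j, rfl⟩ := hb
    rw [D.2 hab]⟩

theorem mem_toClause {k n : ℕ} (D : ProperTuple k n) (l : Fin n × Bool) :
    l ∈ (toClause D).set ↔ ∃ i, D.fn i = l := by
  classical
  simp [toClause, ProperClause.set, ProperTuple.fn]

theorem cl_toClause {k n : ℕ} (D : ProperTuple k n) :
    cl (Fin n) k D.fn = {σ | Satisfies σ (toClause D).1} := by
  ext σ
  change (∃ i, σ (D.fn i).1 = (D.fn i).2) ↔ ∃ l ∈ (toClause D).set, σ l.1 = l.2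
  constructor
  · rintro ⟨i, hi⟩
    exact ⟨D.fn i, (mem_toClause D _).2 ⟨i, rfl⟩, hi⟩
  · rintro ⟨l, hl, h⟩
    obtain ⟨i, rfl⟩ := (mem_toClause D _).1 hl
    exact ⟨i, h⟩

theorem fiber_mem {k n : ℕ} {E : ProperClause k n} (D : {D : ProperTuple k n // toClause D = E})
    (i : Fin k) : D.1.fn i ∈ E.set := by
  obtain ⟨D, rfl⟩ := D
  exact (mem_toClause D _).2 ⟨i, rfl⟩

/-- The tuple of an ordering of a clause. -/
noncomputable def ofOrd {k n : ℕ} (E : ProperClause k n) (f : Fin k ≃ {l // l ∈ E.set}) :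
    ProperTuple k n :=
  ⟨fun i => (f i).1, fun i j h => f.injective (Subtype.ext (E.inj (f i).2 (f j).2 h))⟩

theorem ofOrd_fn {k n : ℕ} (E : ProperClause k n) (f : Fin k ≃ {l // l ∈ E.set}) (i : Fin k) :
    (ofOrd E f).fn i = (f i).1 := rfl

theorem toClause_ofOrd {k n : ℕ} (E : ProperClause k n) (f : Fin k ≃ {l // l ∈ E.set}) :
    toClause (ofOrd E f) = E := by
  apply ProperClause.ext
  intro l
  rw [mem_toClause]
  constructor
  · rintro ⟨i, rfl⟩
    exact (f i).2
  · intro hl
    exact ⟨f.symm ⟨l, hl⟩, by rw [ofOrd_fn, Equiv.apply_symm_apply]⟩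

/-- The fibre of a clause. -/
noncomputable def fiberEquiv {k n : ℕ} (E : ProperClause k n) :
    {D : ProperTuple k n // toClause D = E} ≃ (Fin k ≃ {l // l ∈ E.set}) where
  toFun D := Equiv.ofBijective (fun i => ⟨D.1.fn i, fiber_mem D i⟩) (by
    rw [Fintype.bijective_iff_injective_and_card]
    refine ⟨fun i j h => D.1.inj (congrArg Prod.fst (congrArg Subtype.val h)), ?_⟩
    simp [E.card_set])
  invFun f := ⟨ofOrd E f, toClause_ofOrd E f⟩
  left_inv D := Subtype.ext (ProperTuple.ext fun i => rfl)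
  right_inv f := Equiv.ext fun i => Subtype.ext rfl

theorem card_fiber {k n : ℕ} (E : ProperClause k n) :
    Nat.card {D : ProperTuple k n // toClause D = E} = k.factorial := by
  classical
  rw [Nat.card_congr (fiberEquiv E)]
  have e : Fin k ≃ {l // l ∈ E.set} := Fintype.equivOfCardEq (by simp [E.card_set])
  rw [Nat.card_congr (Equiv.equivCongr (Equiv.refl (Fin k)) e.symm), Nat.card_eq_fintype_card,
    Fintype.card_perm, Fintype.card_fin]

/-- Proper tuples are proper clauses with an ordering. -/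
theorem exists_tuple_equiv (k n : ℕ) :
    ∃ e : ProperTuple k n ≃ ProperClause k n × Fin k.factorial,
      ∀ D, (e D).1 = toClause D := by
  classical
  have h : ∀ E : ProperClause k n,
      Nonempty ({D : ProperTuple k n // toClause D = E} ≃ Fin k.factorial) := by
    intro E
    have : Fintype.card {D : ProperTuple k n // toClause D = E} =
        Fintype.card (Fin k.factorial) := by
      rw [← Nat.card_eq_fintype_card, card_fiber, Fintype.card_fin]
    exact ⟨Fintype.equivOfCardEq this⟩
  let f := fun E => (h E).some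
  refine ⟨(Equiv.sigmaFiberEquiv toClause).symm.trans
    ((Equiv.sigmaCongrRight f).trans (Equiv.sigmaEquivProd _ _)), ?_⟩
  intro D
  rfl

theorem card_properTuple (k n : ℕ) :
    Fintype.card (ProperTuple k n) = n.descFactorial k * 2 ^ k := by
  classical
  have e : ProperTuple k n ≃ (Fin k ↪ Fin n) × (Fin k → Bool) :=
    { toFun := fun D => (⟨fun i => (D.fn i).1, D.inj⟩, fun i => (D.fn i).2)
      invFun := fun p => ⟨fun i => (p.1 i, p.2 i), p.1.injective⟩
      left_inv := fun D => rfl
      right_inv := fun p => rfl }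
  rw [Fintype.card_congr e, Fintype.card_prod, Fintype.card_embedding_eq]
  simp

/-- The clause family of the proper model. -/
def pcl (k n : ℕ) (E : ProperClause k n) : Set (Fin n → Bool) := {σ | Satisfies σ E.1}

theorem satProb_eq (k n M : ℕ) [Nonempty (ProperClause k n)] :
    satProb k n M = 1 - kap (pcl k n) M Set.univ := by
  classical
  rw [kap_eq_avg]
  have hne : Nonempty (Fin M → ProperClause k n) := inferInstance
  have h1 : (1 : ℝ) - (avg fun g : Fin M → ProperClause k n =>
      ind (Set.univ ∩ ⋂ i, pcl k n (g i))) =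
      avg fun g : Fin M → ProperClause k n => 1 - ind (Set.univ ∩ ⋂ i, pcl k n (g i)) := by
    rw [avg_sub, avg_const]
  rw [h1]
  have h2 : (fun g : Fin M → ProperClause k n => 1 - ind (Set.univ ∩ ⋂ i, pcl k n (g i))) =
      fun g => if Satisfiable g then (1 : ℝ) else 0 := by
    funext g
    by_cases hg : Satisfiable g
    · rw [if_pos hg, ind_of_nonempty, sub_zero]
      obtain ⟨σ, hσ⟩ := hg
      exact ⟨σ, Set.mem_univ _, Set.mem_iInter.2 hσ⟩
    · rw [if_neg hg]
      have : (Set.univ ∩ ⋂ i, pcl k n (g i)) = ∅ := by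
        rw [Set.eq_empty_iff_forall_notMem]
        rintro σ ⟨-, hσ⟩
        exact hg ⟨σ, Set.mem_iInter.1 hσ⟩
      rw [this, ind_empty, sub_self]
  rw [h2]
  unfold avg satProb
  rw [Finset.sum_boole, Nat.card_eq_fintype_card, Nat.card_eq_fintype_card,
    Fintype.card_subtype, Fintype.card_fun, Fintype.card_fin]
  push_cast
  rfl

theorem one_sub_kap_eq {Ω ι : Type*} [Fintype ι] [Nonempty ι] (A : ι → Set Ω) (m : ℕ)
    (S : Set Ω) : 1 - kap A m S = opn A m (fun T => 1 - ind T) S := by
  rw [opn_sub_fun, opn_const]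
  rfl

theorem pcl_opn (k n M : ℕ) (f : Set (Fin n → Bool) → ℝ) (S : Set (Fin n → Bool)) :
    opn (fun D : ProperTuple k n => cl (Fin n) k D.fn) M f S = opn (pcl k n) M f S := by
  obtain ⟨e, he⟩ := exists_tuple_equiv k n
  have hne : Nonempty (Fin k.factorial) := ⟨⟨0, k.factorial_pos⟩⟩
  rw [← opn_quot (pcl k n) e M f S]
  congr 1
  funext D
  rw [cl_toClause, he]
  rfl

/-- The proportion of proper tuples. -/
theorem ratio_pow (k : ℕ) (C : ℝ) (hC : 0 < C) : ∃ q : ℝ, 0 < q ∧ ∃ N₀ : ℕ, ∀ n ≥ N₀,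
    0 < n ∧ k ≤ n ∧ ∀ M : ℕ, (M : ℝ) ≤ C * n →
      q ≤ ((Fintype.card (ProperTuple k n) : ℝ) / Fintype.card (Fin k → Fin n × Bool)) ^ M := by
  refine ⟨Real.exp (-(2 * k ^ 2 * C)), Real.exp_pos _, 2 * k ^ 2 + k + 1, fun n hn => ?_⟩
  have hn0 : 0 < n := by omega
  have hkn : k ≤ n := by nlinarith
  refine ⟨hn0, hkn, fun M hM => ?_⟩
  have hnR : (0 : ℝ) < n := by exact_mod_cast hn0
  have hcard : (Fintype.card (Fin k → Fin n × Bool) : ℝ) = (n : ℝ) ^ k * 2 ^ k := by
    rw [Fintype.card_fun, Fintype.card_prod, Fintype.card_fin, Fintype.card_fin, Fintype.card_bool]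
    push_cast
    rw [mul_pow]
  have hr : ((Fintype.card (ProperTuple k n) : ℝ) / Fintype.card (Fin k → Fin n × Bool)) =
      (n.descFactorial k : ℝ) / (n : ℝ) ^ k := by
    rw [hcard, card_properTuple]
    push_cast
    rw [mul_div_mul_right _ _ (by positivity)]
  rw [hr]
  set x : ℝ := (k : ℝ) ^ 2 / n with hx
  have hx0 : 0 ≤ x := by positivity
  have hx1 : x ≤ 1 / 2 := by
    rw [hx, div_le_iff₀ hnR]
    have : ((2 * k ^ 2 + k + 1 : ℕ) : ℝ) ≤ n := by exact_mod_cast hn
    push_cast at this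
    have hk0 : (0 : ℝ) ≤ k := Nat.cast_nonneg k
    linarith
  have h1 : 1 - x ≤ (n.descFactorial k : ℝ) / (n : ℝ) ^ k := by
    have h2 : ((n + 1 - k : ℕ) : ℝ) ^ k ≤ (n.descFactorial k : ℝ) := by
      exact_mod_cast Nat.pow_sub_le_descFactorial n k
    have h3 : ((n + 1 - k : ℕ) : ℝ) = n + 1 - k := by
      rw [Nat.cast_sub (by omega)]; push_cast; ring
    rw [h3] at h2
    rw [le_div_iff₀ (by positivity)]
    have h4 : (1 : ℝ) + k * (-(k / n : ℝ)) ≤ (1 + (-(k / n : ℝ))) ^ k := by
      refine one_add_mul_le_pow ?_ k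
      have : (k : ℝ) / n ≤ 1 := by
        rw [div_le_one hnR]; exact_mod_cast hkn
      linarith
    have h5 : (1 : ℝ) - x = 1 + k * (-(k / n : ℝ)) := by
      rw [hx]; ring
    have h6 : (1 + (-(k / n : ℝ))) ^ k * (n : ℝ) ^ k = ((n : ℝ) - k) ^ k := by
      rw [← mul_pow]
      congr 1
      field_simp
      ring
    calc (1 - x) * (n : ℝ) ^ k ≤ (1 + (-(k / n : ℝ))) ^ k * (n : ℝ) ^ k := by
          rw [h5]; gcongr
      _ = ((n : ℝ) - k) ^ k := h6
      _ ≤ ((n : ℝ) + 1 - k) ^ k := by
          have : (k : ℝ) ≤ n := by exact_mod_cast hkn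
          exact pow_le_pow_left₀ (by linarith) (by linarith) k
      _ ≤ _ := h2
  have h2 : Real.exp (-(2 * x)) ≤ 1 - x := by
    have h3 : (1 - x)⁻¹ ≤ Real.exp (2 * x) := by
      have h4 : (1 - x)⁻¹ ≤ 1 + 2 * x := by
        rw [inv_le_iff_one_le_mul₀ (by linarith)]
        nlinarith
      have := Real.add_one_le_exp (2 * x)
      linarith
    rw [Real.exp_neg]
    exact inv_le_of_inv_le₀ (by linarith) h3
  have h3 : (0 : ℝ) ≤ 1 - x := by linarith
  calc Real.exp (-(2 * k ^ 2 * C)) ≤ Real.exp (-(2 * x)) ^ M := by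
        rw [← Real.exp_nat_mul]
        apply Real.exp_le_exp.2
        have : (M : ℝ) * (2 * x) ≤ 2 * k ^ 2 * C := by
          calc (M : ℝ) * (2 * x) ≤ (C * n) * (2 * x) := by gcongr
            _ = 2 * k ^ 2 * C := by rw [hx]; field_simp
        linarith
    _ ≤ (1 - x) ^ M := by gcongr
    _ ≤ _ := by gcongr

end clauses

/-- Transfer between the two models. -/
theorem transfer (k : ℕ) (_hk : 1 ≤ k) (C : ℝ) (hC : 0 < C) :
    ∃ q : ℝ, 0 < q ∧ ∃ N₀ : ℕ, ∀ n ≥ N₀, ∀ M : ℕ, (M : ℝ) ≤ C * n →
      q * (1 - satProb k n M) ≤ del k n M ∧ q * satProb k n M ≤ 1 - del k n M := by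
  classical
  obtain ⟨q, hq, N₀, hN⟩ := ratio_pow k C hC
  refine ⟨q, hq, N₀, fun n hn M hM => ?_⟩
  obtain ⟨hn0, hkn, hr⟩ := hN n hn
  have hr := hr M hM
  have : Nonempty (Fin k → Fin n × Bool) := ⟨fun _ => (⟨0, hn0⟩, true)⟩
  have hT : Nonempty (ProperTuple k n) :=
    ⟨⟨fun i => (⟨i.1, by have := i.2; omega⟩, true), fun i j h => by
      apply Fin.ext
      simpa [Fin.ext_iff] using h⟩⟩
  have hP : Nonempty (ProperClause k n) := ⟨toClause hT.some⟩
  have hinj : Function.Injective (fun D : ProperTuple k n => D.fn) :=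
    fun D D' h => ProperTuple.ext fun i => congrFun h i
  rw [satProb_eq]
  have key : ∀ f : Set (Fin n → Bool) → ℝ, (∀ T, 0 ≤ f T) →
      q * opn (pcl k n) M f Set.univ ≤ opn (cl (Fin n) k) M f Set.univ := by
    intro f hf
    have h1 := opn_ge_sub (cl (Fin n) k) (fun D : ProperTuple k n => D.fn) hinj M f hf Set.univ
    rw [pcl_opn k n M f Set.univ] at h1
    refine le_trans ?_ h1
    have h2 := opn_nonneg (pcl k n) M hf Set.univ
    gcongr
  constructor
  · have := key ind ind_nonneg
    unfold del kap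
    have h3 : 1 - (1 - opn (pcl k n) M ind Set.univ) = opn (pcl k n) M ind Set.univ := by ring
    rw [h3]
    exact this
  · unfold del
    rw [one_sub_kap_eq, one_sub_kap_eq]
    exact key _ fun T => by have := ind_le_one T; linarith

end Vale.Agent.P170
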