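import Vale.Agent.Lib.P170.VarIneq

/-!
# P170: the window in which the unsatisfiability probability moves is short
-/

namespace Vale.Agent.P170

open Finset

/-- a shifted telescoping sum -/
theorem sum_shift_sub_le (a : ℕ → ℝ) (h0 : ∀ i, 0 ≤ a i) (h1 : ∀ i, a i ≤ 1) (D N : ℕ) :
    ∑ i ∈ range D, (a (i + N) - a i) ≤ N := by
  induction N with
  | zero => simp
  | succ N ih =>
    have h : ∑ i ∈ range D, (a (i + (N + 1)) - a i) =
        (∑ i ∈ range D, (a ((i + 1) + N) - a (i + N))) + ∑ i ∈ range D, (a (i + N) - a i) := by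
      rw [← sum_add_distrib]
      refine sum_congr rfl fun i _ => ?_
      rw [show i + (N + 1) = i + 1 + N by ring]
      ring
    rw [h, sum_range_sub (fun i => a (i + N)), Nat.cast_succ]
    have e1 := h1 (D + N)
    have e2 := h0 (0 + N)
    linarith

theorem del_nonneg (k n M : ℕ) : 0 ≤ del k n M := kap_nonneg _ _ _

theorem del_le_one' (k n M : ℕ) (hn : 0 < n) : del k n M ≤ 1 := by
  have : Nonempty (Fin n) := ⟨⟨0, hn⟩⟩
  exact kap_le_one _ _ _

theorem del_mono' (k n : ℕ) (hn : 0 < n) : Monotone (del k n) := by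
  have : Nonempty (Fin n) := ⟨⟨0, hn⟩⟩
  exact kap_mono _ _

/-- the key inequality, summed over the window -/
theorem window_sum (k n M₀ D N : ℕ) (hn : 0 < n) (c R η E : ℝ) (hc0 : 0 < c)
    (hR : ((M₀ + D : ℕ) : ℝ) ≤ R) (hη : 0 < η)
    (h0 : η ≤ del k n M₀) (h1 : del k n (M₀ + D) ≤ 1 - η)
    (hV : ∀ r : ℕ, kap (cl (Fin n) k) (r + 1) Set.univ * (1 - kap (cl (Fin n) k) (r + 1) Set.univ)
      ≤ c * (r + 1) * (kap (cl (Fin n) k) (r + 1) Set.univ - kap (cl (Fin n) k) r Set.univ) +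
        (r + 1) * opn (cl (Fin n) k) r (psi (cl (Fin n) k) N) Set.univ +
        (kap (cl (Fin n) k) (r + N) Set.univ - kap (cl (Fin n) k) r Set.univ) / c)
    (hK : ∀ r : ℕ, r < M₀ + D →
      (r + 1 : ℝ) * opn (cl (Fin n) k) r (psi (cl (Fin n) k) N) Set.univ ≤ E) :
    η / 2 * D ≤ c * R + D * E + N / c := by
  set d : ℕ → ℝ := del k n with hd
  have hmono : Monotone d := del_mono' k n hn
  have hn0 : ∀ r, 0 ≤ d r := del_nonneg k n
  have hn1 : ∀ r, d r ≤ 1 := fun r => del_le_one' k n r hn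
  have hR0 : 0 ≤ R := (Nat.cast_nonneg _).trans hR
  have hηh : η ≤ 1 / 2 := by
    have := hmono (Nat.le_add_right M₀ D)
    linarith
  have hterm : ∀ i ∈ range D, η / 2 ≤ c * R * (d (M₀ + i + 1) - d (M₀ + i)) + E +
      (d (M₀ + i + N) - d (M₀ + i)) / c := by
    intro i hi
    have hi' := mem_range.1 hi
    have a1 : η ≤ d (M₀ + i + 1) := h0.trans (hmono (by omega))
    have a2 : d (M₀ + i + 1) ≤ 1 - η := (hmono (by omega)).trans h1
    have a3 : η / 2 ≤ d (M₀ + i + 1) * (1 - d (M₀ + i + 1)) := by nlinarith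
    have a4 := hV (M₀ + i)
    have a5 := hK (M₀ + i) (by omega)
    have a6 : (((M₀ + i : ℕ) : ℝ) + 1) ≤ R := by
      refine le_trans ?_ hR
      exact_mod_cast (by omega : M₀ + i + 1 ≤ M₀ + D)
    have a7 : 0 ≤ d (M₀ + i + 1) - d (M₀ + i) := sub_nonneg.2 (hmono (by omega))
    have a8 : c * (((M₀ + i : ℕ) : ℝ) + 1) * (d (M₀ + i + 1) - d (M₀ + i)) ≤
        c * R * (d (M₀ + i + 1) - d (M₀ + i)) := by
      gcongr
    have a9 : d (M₀ + i + 1) * (1 - d (M₀ + i + 1)) ≤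
        c * (((M₀ + i : ℕ) : ℝ) + 1) * (d (M₀ + i + 1) - d (M₀ + i)) +
        (((M₀ + i : ℕ) : ℝ) + 1) * opn (cl (Fin n) k) (M₀ + i) (psi (cl (Fin n) k) N) Set.univ +
        (d (M₀ + i + N) - d (M₀ + i)) / c := a4
    linarith
  have hsum := sum_le_sum hterm
  rw [sum_const, card_range, nsmul_eq_mul, sum_add_distrib, sum_add_distrib, ← mul_sum,
    ← sum_div, sum_const, card_range, nsmul_eq_mul] at hsum
  have s1 : ∑ i ∈ range D, (d (M₀ + i + 1) - d (M₀ + i)) = d (M₀ + D) - d M₀ := by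
    have := sum_range_sub (fun i => d (M₀ + i)) D
    simpa [add_assoc] using this
  have s2 : ∑ i ∈ range D, (d (M₀ + i + N) - d (M₀ + i)) ≤ N := by
    have := sum_shift_sub_le (fun i => d (M₀ + i)) (fun i => hn0 _) (fun i => hn1 _) D N
    simpa [add_assoc] using this
  have s3 : c * R * (d (M₀ + D) - d M₀) ≤ c * R := by
    have : d (M₀ + D) - d M₀ ≤ 1 := by linarith [hn0 M₀, hn1 (M₀ + D)]
    have hcR : 0 ≤ c * R := by positivity
    nlinarith
  have s4 : (∑ i ∈ range D, (d (M₀ + i + N) - d (M₀ + i))) / c ≤ N / c := by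
    gcongr
  rw [s1] at hsum
  linarith

/-- `window` from the conclusion of `lemmaK` -/
theorem window_of_lemmaK (k : ℕ) (C η : ℝ) (hC : 0 < C) (hη : 0 < η)
    (hLK : ∃ B : ℝ, 0 < B ∧ ∀ (n M N : ℕ) (ζ : ℝ), 0 < n → 0 < ζ → ζ ≤ 1 → (M : ℝ) ≤ C * n →
      ζ * n ≤ N →
      (M + 1 : ℝ) * opn (cl (Fin n) k) M (psi (cl (Fin n) k) N) Set.univ ≤
        B / (ζ ^ 2 * (n : ℝ) ^ (1 / 8 : ℝ))) :
    ∃ B : ℝ, 0 < B ∧ ∀ n M₀ M₁ : ℕ, 0 < n → M₀ ≤ M₁ →
    (M₁ : ℝ) ≤ C * n → η ≤ del k n M₀ → del k n M₁ ≤ 1 - η →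
      (M₁ - M₀ : ℝ) ≤ B * (n : ℝ) ^ (1 - 1 / 64 : ℝ) := by
  obtain ⟨B', hB', hK⟩ := hLK
  refine ⟨4 * (C + 2) / η + 4 * C * B' / η, by positivity, ?_⟩
  intro n M₀ M₁ hn hM hM1 h0 h1
  obtain ⟨D, rfl⟩ := Nat.exists_eq_add_of_le hM
  have hn1 : (1 : ℝ) ≤ n := by exact_mod_cast hn
  have hn0 : (0 : ℝ) ≤ n := by linarith
  set x : ℝ := (n : ℝ) ^ (1 / 64 : ℝ) with hx
  have hx1 : 1 ≤ x := Real.one_le_rpow hn1 (by norm_num)
  have hx0 : 0 < x := by linarith
  have hnx : (n : ℝ) = x ^ 64 := by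
    rw [hx, ← Real.rpow_natCast, ← Real.rpow_mul hn0]
    norm_num
  have h8 : (n : ℝ) ^ (1 / 8 : ℝ) = x ^ 8 := by
    rw [hx, ← Real.rpow_natCast, ← Real.rpow_mul hn0]
    norm_num
  have h63 : (n : ℝ) ^ (1 - 1 / 64 : ℝ) = x ^ 63 := by
    rw [hx, ← Real.rpow_natCast, ← Real.rpow_mul hn0]
    norm_num
  rw [h63]
  have hD0 : (0 : ℝ) ≤ D := Nat.cast_nonneg D
  have hDsub : (((M₀ + D : ℕ) : ℝ) - M₀) = D := by push_cast; ring
  rw [hDsub]
  by_cases hcase : B' / x ^ 4 ≤ η / 4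
  · -- the main case
    have : Nonempty (Fin n) := ⟨⟨0, hn⟩⟩
    set ζ : ℝ := 1 / x ^ 2 with hζ
    have hζ0 : 0 < ζ := by positivity
    have hζ1 : ζ ≤ 1 := by
      rw [hζ, div_le_one (by positivity)]
      exact one_le_pow₀ hx1
    set N : ℕ := ⌈ζ * n⌉₊ with hN
    have hζN : ζ * n ≤ N := Nat.le_ceil _
    have hζn : ζ * n = x ^ 62 := by
      rw [hζ, hnx]
      field_simp
    have hN2 : (N : ℝ) ≤ 2 * x ^ 62 := by
      have h2 : (N : ℝ) < ζ * n + 1 := Nat.ceil_lt_add_one (by positivity)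
      have h3 : (1 : ℝ) ≤ x ^ 62 := one_le_pow₀ hx1
      rw [hζn] at h2
      linarith
    have hE : ∀ r : ℕ, r < M₀ + D →
        (r + 1 : ℝ) * opn (cl (Fin n) k) r (psi (cl (Fin n) k) N) Set.univ ≤ B' / x ^ 4 := by
      intro r hr
      have h2 : (r : ℝ) ≤ C * n := by
        refine le_trans ?_ hM1
        exact_mod_cast hr.le
      have h3 := hK n r N ζ hn hζ0 hζ1 h2 hζN
      have h4 : ζ ^ 2 * (n : ℝ) ^ (1 / 8 : ℝ) = x ^ 4 := by
        rw [h8, hζ]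
        field_simp
      rw [h4] at h3
      exact h3
    have hc1 : (1 / x) ≤ 1 := by
      rw [div_le_one hx0]
      exact hx1
    have hmain := window_sum k n M₀ D N hn (1 / x) (C * n) η (B' / x ^ 4) (by positivity)
      hM1 hη h0 h1
      (fun r => var_ineq (cl (Fin n) k) N (by positivity) hc1 r Set.univ) hE
    have e1 : 1 / x * (C * n) = C * x ^ 63 := by
      rw [hnx]
      field_simp
    have e2 : (N : ℝ) / (1 / x) ≤ 2 * x ^ 63 := by
      rw [div_div_eq_mul_div, div_one]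
      calc (N : ℝ) * x ≤ 2 * x ^ 62 * x := by gcongr
        _ = 2 * x ^ 63 := by ring
    rw [e1] at hmain
    have e3 : D * (B' / x ^ 4) ≤ D * (η / 4) := by gcongr
    have e4 : (D : ℝ) * (η / 4) ≤ (C + 2) * x ^ 63 := by linarith
    have e5 : (D : ℝ) ≤ 4 * (C + 2) / η * x ^ 63 := by
      rw [div_mul_eq_mul_div, le_div_iff₀ hη]
      linarith
    have e6 : 0 ≤ 4 * C * B' / η * x ^ 63 := by positivity
    linarith
  · -- bounded `n`
    have hcase' : η / 4 < B' / x ^ 4 := lt_of_not_ge hcase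
    rw [lt_div_iff₀ (by positivity)] at hcase'
    have e1 : x ≤ x ^ 4 := le_self_pow₀ hx1 (by norm_num)
    have e2 : x ≤ 4 * B' / η := by
      rw [le_div_iff₀ hη]
      nlinarith
    have e3 : (D : ℝ) ≤ C * x ^ 64 := by
      rw [← hnx]
      refine le_trans ?_ hM1
      exact_mod_cast Nat.le_add_left D M₀
    have e4 : C * x ^ 64 ≤ 4 * C * B' / η * x ^ 63 := by
      calc C * x ^ 64 = C * x ^ 63 * x := by ring
        _ ≤ C * x ^ 63 * (4 * B' / η) := by gcongr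
        _ = 4 * C * B' / η * x ^ 63 := by ring
    have e5 : 0 ≤ 4 * (C + 2) / η * x ^ 63 := by positivity
    linarith

end Vale.Agent.P170
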