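import Vale.Agent.Lib.P170.Defs
import Vale.Agent.Lib.P170.Good
import Vale.Agent.Lib.P170.LemmaK
import Vale.Agent.Lib.P170.Window
import Vale.Agent.Lib.P170.Paste
import Vale.Agent.Lib.P170.Restrict
import Vale.Agent.Lib.P170.AllSizes
import Vale.Agent.Lib.P170.LimitCore
import Vale.Agent.Lib.P170.FirstMoment
import Vale.Agent.Lib.P170.Hall
import Vale.Agent.Lib.P170.Transfer

/-!
# P170: the limiting threshold exists for every `k ≥ 3`
-/

namespace Vale.Agent.P170

open Filter Topology Finset

theorem del_good (k : ℕ) (hk : 3 ≤ k) : Good k (del k) := by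
  have hne : ∀ n : ℕ, 0 < n → Nonempty (Fin k → Fin n × Bool) := fun n hn =>
    ⟨fun _ => (⟨0, hn⟩, true)⟩
  have hempty : ∀ M : ℕ, 0 < M → del k 0 M = 0 := by
    intro M hM
    obtain ⟨M', rfl⟩ : ∃ M', M = M' + 1 := ⟨M - 1, by omega⟩
    have : IsEmpty (Fin k → Fin 0 × Bool) := ⟨fun D => (D ⟨0, by omega⟩).1.elim0⟩
    unfold del
    rw [kap_succ]
    unfold avg
    simp
  have hzero : ∀ n : ℕ, del k n 0 = 0 := by
    intro n
    unfold del
    rw [kap_zero]
    exact ind_of_nonempty ⟨fun _ => true, Set.mem_univ _⟩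
  refine ⟨fun n => ?_, fun n M => kap_nonneg _ _ _, fun n M => ?_, fun n _ => hzero n,
    fun a b M ha hb => paste k a b M ha hb, fun m n M hm hmn => restrict k m n M hm hmn,
    fun C η hC hη => window_of_lemmaK k C η hC hη (lemmaK k hk C hC)⟩
  · rcases Nat.eq_zero_or_pos n with rfl | hn
    · intro a b _
      have h : ∀ M, del k 0 M = 0 := by
        intro M
        rcases Nat.eq_zero_or_pos M with rfl | hM
        · exact hzero 0
        · exact hempty M hM
      rw [h a, h b]
    · have := hne n hn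
      exact kap_mono (cl (Fin n) k) Set.univ
  · rcases Nat.eq_zero_or_pos n with rfl | hn
    · rcases Nat.eq_zero_or_pos M with rfl | hM
      · rw [hzero]; norm_num
      · rw [hempty M hM]; norm_num
    · have := hne n hn
      exact kap_le_one _ _ _

theorem satProb_nonneg (k n M : ℕ) : 0 ≤ satProb k n M := by
  unfold satProb; positivity

theorem satProb_le_one (k n M : ℕ) : satProb k n M ≤ 1 := by
  unfold satProb
  have hfin : Finite (ProperClause k n) := Subtype.finite
  have h : Nat.card {F : Fin M → ProperClause k n // Satisfiable F} ≤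
      Nat.card (ProperClause k n) ^ M := by
    have h1 : Nat.card {F : Fin M → ProperClause k n // Satisfiable F} ≤
        Nat.card (Fin M → ProperClause k n) :=
      Nat.card_le_card_of_injective _ Subtype.val_injective
    have h2 : Nat.card (Fin M → ProperClause k n) = Nat.card (ProperClause k n) ^ M := by
      rw [Nat.card_fun]; simp
    rwa [h2] at h1
  apply div_le_one_of_le₀ _ (by positivity)
  exact_mod_cast h

theorem main (k : ℕ) (hk : 3 ≤ k) : ∃ α : ℝ, HasLimitingThreshold k α := by
  obtain ⟨α, hα, hlow, hup⟩ := limit_of_all_sizes (del_good k hk)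
    (fun C hC => all_sizes (del_good k hk) C hC) ⟨_, del_firstMoment k _ le_rfl⟩
    (del_hall k hk)
  refine ⟨α, hα, fun c hc0 hc => ?_, fun c hc => ?_⟩
  · obtain ⟨q, hq, N₀, hN⟩ := transfer k (by omega) (c + 1) (by linarith)
    have h1 := hlow c hc
    have h2 : Tendsto (fun n : ℕ => 1 - del k n ⌊c * n⌋₊ / q) atTop (𝓝 1) := by
      have := (h1.div_const q).const_sub 1
      simpa using this
    refine tendsto_of_tendsto_of_tendsto_of_le_of_le' h2 tendsto_const_nhds ?_
      (Eventually.of_forall fun n => satProb_le_one k n _)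
    filter_upwards [eventually_ge_atTop N₀] with n hn
    have hM : ((⌊c * n⌋₊ : ℕ) : ℝ) ≤ (c + 1) * n := by
      have : ((⌊c * n⌋₊ : ℕ) : ℝ) ≤ c * n := Nat.floor_le (by positivity)
      have hn0 : (0 : ℝ) ≤ n := Nat.cast_nonneg n
      nlinarith
    have := (hN n hn _ hM).1
    have h3 : 1 - satProb k n ⌊c * n⌋₊ ≤ del k n ⌊c * n⌋₊ / q := by
      rw [le_div_iff₀ hq]; linarith
    linarith
  · have hc0 : 0 < c := hα.trans hc
    obtain ⟨q, hq, N₀, hN⟩ := transfer k (by omega) (c + 1) (by linarith)
    have h1 := hup c hc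
    have h2 : Tendsto (fun n : ℕ => (1 - del k n ⌊c * n⌋₊) / q) atTop (𝓝 0) := by
      have := (h1.const_sub 1).div_const q
      simpa using this
    refine tendsto_of_tendsto_of_tendsto_of_le_of_le' tendsto_const_nhds h2
      (Eventually.of_forall fun n => satProb_nonneg k n _) ?_
    filter_upwards [eventually_ge_atTop N₀] with n hn
    have hM : ((⌊c * n⌋₊ : ℕ) : ℝ) ≤ (c + 1) * n := by
      have : ((⌊c * n⌋₊ : ℕ) : ℝ) ≤ c * n := Nat.floor_le (by positivity)
      have hn0 : (0 : ℝ) ≤ n := Nat.cast_nonneg n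
      nlinarith
    have := (hN n hn _ hM).2
    rw [le_div_iff₀ hq]; linarith

end Vale.Agent.P170
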