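import Vale.Agent.Lib.P170.Good

/-!
# P170: pasting copies of equal size
-/

namespace Vale.Agent.P170

open Finset

/-- monotonicity in the level -/
theorem Good.floor_mono {k : ℕ} {δ : ℕ → ℕ → ℝ} (h : Good k δ) (n : ℕ) {x y : ℝ} (hxy : x ≤ y) :
    δ n ⌊x * n⌋₊ ≤ δ n ⌊y * n⌋₊ :=
  h.mono n (Nat.floor_mono (mul_le_mul_of_nonneg_right hxy (Nat.cast_nonneg n)))

/-- `multiples`, conditional on the statement of `paste_level` -/
theorem multiples_aux {k : ℕ} {δ : ℕ → ℕ → ℝ} (h : Good k δ) (C : ℝ)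
    (hp : ∃ B : ℝ, 0 < B ∧ ∀ (a b : ℕ) (y : ℝ), 0 < a → a ≤ b → b ≤ 2 * a → y ≤ C →
      δ a ⌊y * a⌋₊ ≤ 1 / 4 → δ b ⌊y * b⌋₊ ≤ 1 / 4 →
      δ (a + b) ⌊(y - B * ((a + b : ℕ) : ℝ) ^ (-(1 / 64) : ℝ)) * (a + b : ℕ)⌋₊ ≤ 1 / 4) :
    ∃ K : ℝ, 0 < K ∧ ∀ (n t : ℕ) (y : ℝ), 0 < n → 0 < t → y ≤ C → δ n ⌊y * n⌋₊ ≤ 1 / 4 →
      δ (t * n) ⌊(y - K * (n : ℝ) ^ (-(1 / 64) : ℝ)) * (t * n : ℕ)⌋₊ ≤ 1 / 4 := by
  obtain ⟨B, hB, hpaste⟩ := hp
  set θ : ℝ := -(1 / 64) with hθ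
  have h32 : (1 : ℝ) < (3 / 2 : ℝ) ^ (-θ) := Real.one_lt_rpow (by norm_num) (by rw [hθ]; norm_num)
  have hden : (0 : ℝ) < (3 / 2 : ℝ) ^ (-θ) - 1 := by linarith
  refine ⟨B / ((3 / 2 : ℝ) ^ (-θ) - 1), div_pos hB hden, ?_⟩
  intro n t y hn ht hy hδ
  set K : ℝ := B / ((3 / 2 : ℝ) ^ (-θ) - 1) with hK
  have hK0 : 0 < K := div_pos hB hden
  have hKB : K * ((3 / 2 : ℝ) ^ (-θ) - 1) = B := by
    rw [hK, div_mul_cancel₀ _ hden.ne']
  have hn0 : (0 : ℝ) < n := by exact_mod_cast hn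
  have hnθ : 0 < (n : ℝ) ^ θ := Real.rpow_pos_of_pos hn0 _
  -- the claim
  have claim : ∀ t : ℕ, 0 < t →
      δ (t * n) ⌊(y - K * (1 - (t : ℝ) ^ θ) * (n : ℝ) ^ θ) * (t * n : ℕ)⌋₊ ≤ 1 / 4 := by
    intro t
    induction t using Nat.strong_induction_on with
    | _ t ih =>
      intro ht
      rcases Nat.lt_or_ge t 2 with h2 | h2
      · have : t = 1 := by omega
        subst this
        simpa using hδ
      · obtain ⟨t1, t2, ht1, ht12, ht21, htt, h32t⟩ : ∃ t1 t2 : ℕ, 0 < t1 ∧ t1 ≤ t2 ∧ t2 ≤ 2 * t1 ∧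
            t1 + t2 = t ∧ 3 * t2 ≤ 2 * t :=
          ⟨t / 2, t - t / 2, by omega, by omega, by omega, by omega, by omega⟩
        have ht2 : 0 < t2 := lt_of_lt_of_le ht1 ht12
        have i1 := ih t1 (by omega) ht1
        have i2 := ih t2 (by omega) ht2
        have ht1r : (0 : ℝ) < t1 := by exact_mod_cast ht1
        have ht2r : (0 : ℝ) < t2 := by exact_mod_cast ht2
        have htr : (0 : ℝ) < t := by exact_mod_cast ht
        have hθneg : θ ≤ 0 := by rw [hθ]; norm_num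
        -- powers
        have hpow12 : (t2 : ℝ) ^ θ ≤ (t1 : ℝ) ^ θ :=
          Real.rpow_le_rpow_of_nonpos ht1r (by exact_mod_cast ht12) hθneg
        have ht2one : (t2 : ℝ) ^ θ ≤ 1 :=
          Real.rpow_le_one_of_one_le_of_nonpos (by exact_mod_cast ht2) hθneg
        have hlev : y - K * (1 - (t2 : ℝ) ^ θ) * (n : ℝ) ^ θ ≤
            y - K * (1 - (t1 : ℝ) ^ θ) * (n : ℝ) ^ θ := by
          have : K * (1 - (t1 : ℝ) ^ θ) * (n : ℝ) ^ θ ≤ K * (1 - (t2 : ℝ) ^ θ) * (n : ℝ) ^ θ := by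
            apply mul_le_mul_of_nonneg_right _ hnθ.le
            apply mul_le_mul_of_nonneg_left _ hK0.le
            linarith
          linarith
        have j1 : δ (t1 * n) ⌊(y - K * (1 - (t2 : ℝ) ^ θ) * (n : ℝ) ^ θ) * (t1 * n : ℕ)⌋₊ ≤ 1 / 4 :=
          (h.floor_mono (t1 * n) hlev).trans i1
        have hyC : y - K * (1 - (t2 : ℝ) ^ θ) * (n : ℝ) ^ θ ≤ C := by
          have : 0 ≤ K * (1 - (t2 : ℝ) ^ θ) * (n : ℝ) ^ θ :=
            mul_nonneg (mul_nonneg hK0.le (by linarith)) hnθ.le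
          linarith
        have hmain := hpaste (t1 * n) (t2 * n) _ (Nat.mul_pos ht1 hn)
          (Nat.mul_le_mul_right n ht12) (by nlinarith [Nat.mul_le_mul_right n ht21]) hyC j1 i2
        have hsum : t1 * n + t2 * n = t * n := by rw [← htt]; ring
        rw [hsum] at hmain
        refine le_trans (h.floor_mono (t * n) ?_) hmain
        -- e_t ≥ e_{t2} + B (t n)^θ
        have hcast : ((t * n : ℕ) : ℝ) ^ θ = (t : ℝ) ^ θ * (n : ℝ) ^ θ := by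
          push_cast
          exact Real.mul_rpow htr.le hn0.le
        rw [hcast]
        have hratio : (t : ℝ) ^ θ * (3 / 2 : ℝ) ^ (-θ) ≤ (t2 : ℝ) ^ θ := by
          have h1 : (t : ℝ) ^ θ * (3 / 2 : ℝ) ^ (-θ) = ((t : ℝ) / (3 / 2)) ^ θ := by
            rw [Real.div_rpow htr.le (by norm_num),
              Real.rpow_neg (by norm_num : (0 : ℝ) ≤ 3 / 2) θ]
            exact (div_eq_mul_inv _ _).symm
          rw [h1]
          apply Real.rpow_le_rpow_of_nonpos ht2r _ hθneg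
          rw [le_div_iff₀ (by norm_num)]
          have : (3 * t2 : ℝ) ≤ 2 * t := by exact_mod_cast h32t
          linarith
        have hfin : B * ((t : ℝ) ^ θ * (n : ℝ) ^ θ) ≤
            K * ((t2 : ℝ) ^ θ - (t : ℝ) ^ θ) * (n : ℝ) ^ θ := by
          rw [← hKB]
          have : K * ((3 / 2 : ℝ) ^ (-θ) - 1) * ((t : ℝ) ^ θ * (n : ℝ) ^ θ) =
              K * ((t : ℝ) ^ θ * (3 / 2 : ℝ) ^ (-θ) - (t : ℝ) ^ θ) * (n : ℝ) ^ θ := by ring
          rw [this]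
          apply mul_le_mul_of_nonneg_right _ hnθ.le
          apply mul_le_mul_of_nonneg_left _ hK0.le
          linarith
        nlinarith [hfin]
  refine le_trans (h.floor_mono (t * n) ?_) (claim t ht)
  have htr : (0 : ℝ) < t := by exact_mod_cast ht
  have htθ : 0 < (t : ℝ) ^ θ := Real.rpow_pos_of_pos htr _
  have : K * (1 - (t : ℝ) ^ θ) * (n : ℝ) ^ θ ≤ K * (n : ℝ) ^ θ := by
    apply mul_le_mul_of_nonneg_right _ hnθ.le
    nlinarith
  linarith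

end Vale.Agent.P170
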