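import Mathlib

/-!
# P170: averaging operators on functions of a solution set

A family `A : ι → Set Ω` of constraints; a random constraint is `A i` with `i` uniform in `ι`.
`op A f S` is the expectation of `f (S ∩ A i)`, `kap A m S` is the probability that `S` intersected
with `m` independent random constraints is empty.
-/

namespace Vale.Agent.P170

open Finset

/-! ### averages -/

/-- average over a finite type -/
noncomputable def avg {ι : Type*} [Fintype ι] (f : ι → ℝ) : ℝ :=
  (∑ i, f i) / (Fintype.card ι : ℝ)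

section Avg

variable {ι κ : Type*} [Fintype ι] [Fintype κ]

theorem avg_mono {f g : ι → ℝ} (h : ∀ i, f i ≤ g i) : avg f ≤ avg g := by
  unfold avg
  exact div_le_div_of_nonneg_right (Finset.sum_le_sum fun i _ => h i) (Nat.cast_nonneg _)

theorem avg_nonneg {f : ι → ℝ} (h : ∀ i, 0 ≤ f i) : 0 ≤ avg f := by
  unfold avg
  exact div_nonneg (Finset.sum_nonneg fun i _ => h i) (Nat.cast_nonneg _)

theorem avg_const [Nonempty ι] (c : ℝ) : avg (fun _ : ι => c) = c := by
  unfold avg
  have : (Fintype.card ι : ℝ) ≠ 0 := by exact_mod_cast Fintype.card_ne_zero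
  simp only [Finset.sum_const, Finset.card_univ, nsmul_eq_mul]
  field_simp

theorem avg_add (f g : ι → ℝ) : avg (fun i => f i + g i) = avg f + avg g := by
  unfold avg; rw [Finset.sum_add_distrib, add_div]

theorem avg_sub (f g : ι → ℝ) : avg (fun i => f i - g i) = avg f - avg g := by
  unfold avg; rw [Finset.sum_sub_distrib, sub_div]

theorem avg_mul_left (c : ℝ) (f : ι → ℝ) : avg (fun i => c * f i) = c * avg f := by
  unfold avg; rw [← Finset.mul_sum, mul_div_assoc]

theorem avg_mul_right (c : ℝ) (f : ι → ℝ) : avg (fun i => f i * c) = avg f * c := by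
  unfold avg; rw [← Finset.sum_mul]; ring

theorem avg_div (c : ℝ) (f : ι → ℝ) : avg (fun i => f i / c) = avg f / c := by
  simp only [div_eq_mul_inv]; exact avg_mul_right _ _

theorem avg_sum {τ : Type*} (s : Finset τ) (f : τ → ι → ℝ) :
    avg (fun i => ∑ t ∈ s, f t i) = ∑ t ∈ s, avg (f t) := by
  unfold avg; rw [Finset.sum_comm, Finset.sum_div]

theorem avg_comm (f : ι → κ → ℝ) :
    avg (fun i => avg fun j => f i j) = avg (fun j => avg fun i => f i j) := by
  unfold avg
  simp only [← Finset.sum_div]
  rw [Finset.sum_comm, div_right_comm]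

theorem avg_le_of_le [Nonempty ι] {f : ι → ℝ} {c : ℝ} (h : ∀ i, f i ≤ c) : avg f ≤ c := by
  calc avg f ≤ avg (fun _ : ι => c) := avg_mono h
    _ = c := avg_const c

theorem le_avg_of_le [Nonempty ι] {f : ι → ℝ} {c : ℝ} (h : ∀ i, c ≤ f i) : c ≤ avg f := by
  calc c = avg (fun _ : ι => c) := (avg_const c).symm
    _ ≤ avg f := avg_mono h

theorem avg_equiv (e : ι ≃ κ) (f : κ → ℝ) : avg (fun i => f (e i)) = avg f := by
  unfold avg
  rw [Fintype.card_congr e, e.sum_comp f]

/-- average over a product -/
theorem avg_prod (f : ι × κ → ℝ) : avg f = avg (fun i => avg fun j => f (i, j)) := by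
  unfold avg
  rw [Fintype.sum_prod_type, Fintype.card_prod]
  simp only [← Finset.sum_div]
  rw [div_div, Nat.cast_mul, mul_comm (Fintype.card κ : ℝ)]

/-- average over functions `Fin (m+1) → ι` -/
theorem avg_fin_succ (m : ℕ) (f : (Fin (m + 1) → ι) → ℝ) :
    avg f = avg (fun i => avg fun g : Fin m → ι => f (Fin.cons i g)) := by
  rw [← avg_equiv (Fin.consEquiv (fun _ => ι)) f, avg_prod]
  rfl

end Avg

/-! ### operators -/

section Op

variable {Ω : Type*} {ι κ : Type*} [Fintype ι] [Fintype κ]

/-- expectation of `f` after one random constraint of the family `A` -/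
noncomputable def op (A : ι → Set Ω) (f : Set Ω → ℝ) : Set Ω → ℝ :=
  fun S => avg fun i => f (S ∩ A i)

/-- expectation of `f` after `m` independent random constraints of the family `A` -/
noncomputable def opn (A : ι → Set Ω) (m : ℕ) (f : Set Ω → ℝ) : Set Ω → ℝ :=
  (op A)^[m] f

/-- indicator of the empty set -/
noncomputable def ind (S : Set Ω) : ℝ := by
  classical exact if S = ∅ then 1 else 0

/-- probability that `S` with `m` random constraints of the family `A` is empty -/
noncomputable def kap (A : ι → Set Ω) (m : ℕ) (S : Set Ω) : ℝ := opn A m ind S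

theorem ind_empty : ind (∅ : Set Ω) = 1 := by simp [ind]

theorem ind_of_nonempty {S : Set Ω} (h : S.Nonempty) : ind S = 0 := by
  simp [ind, h.ne_empty]

theorem ind_nonneg (S : Set Ω) : 0 ≤ ind S := by
  unfold ind; split_ifs <;> norm_num

theorem ind_le_one (S : Set Ω) : ind S ≤ 1 := by
  unfold ind; split_ifs <;> norm_num

theorem ind_anti {S T : Set Ω} (h : S ⊆ T) : ind T ≤ ind S := by
  rcases S.eq_empty_or_nonempty with rfl | hS
  · rw [ind_empty]; exact ind_le_one T
  · rw [ind_of_nonempty (hS.mono h)]; exact ind_nonneg _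

theorem opn_zero (A : ι → Set Ω) (f : Set Ω → ℝ) : opn A 0 f = f := rfl

theorem opn_succ (A : ι → Set Ω) (m : ℕ) (f : Set Ω → ℝ) :
    opn A (m + 1) f = op A (opn A m f) := by
  unfold opn; rw [Function.iterate_succ']; rfl

theorem opn_succ' (A : ι → Set Ω) (m : ℕ) (f : Set Ω → ℝ) :
    opn A (m + 1) f = opn A m (op A f) := by
  unfold opn; rw [Function.iterate_succ]; rfl

theorem opn_succ_apply (A : ι → Set Ω) (m : ℕ) (f : Set Ω → ℝ) (S : Set Ω) :
    opn A (m + 1) f S = avg fun i => opn A m f (S ∩ A i) := by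
  rw [opn_succ]; rfl

theorem opn_add (A : ι → Set Ω) (a b : ℕ) (f : Set Ω → ℝ) :
    opn A (a + b) f = opn A a (opn A b f) := by
  unfold opn; rw [Function.iterate_add]; rfl

theorem op_mono_on (A : ι → Set Ω) {f g : Set Ω → ℝ} {S : Set Ω}
    (h : ∀ T ⊆ S, f T ≤ g T) : op A f S ≤ op A g S :=
  avg_mono fun i => h _ Set.inter_subset_left

theorem opn_mono_on (A : ι → Set Ω) (m : ℕ) {f g : Set Ω → ℝ} {S : Set Ω}
    (h : ∀ T ⊆ S, f T ≤ g T) : opn A m f S ≤ opn A m g S := by
  induction m generalizing S with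
  | zero => exact h S subset_rfl
  | succ m ih =>
    rw [opn_succ, opn_succ]
    exact op_mono_on A fun T hT => ih fun U hU => h U (hU.trans hT)

theorem opn_mono (A : ι → Set Ω) (m : ℕ) {f g : Set Ω → ℝ} (h : ∀ T, f T ≤ g T) (S : Set Ω) :
    opn A m f S ≤ opn A m g S :=
  opn_mono_on A m fun T _ => h T

theorem op_congr_on (A : ι → Set Ω) {f g : Set Ω → ℝ} {S : Set Ω}
    (h : ∀ T ⊆ S, f T = g T) : op A f S = op A g S :=
  le_antisymm (op_mono_on A fun T hT => (h T hT).le) (op_mono_on A fun T hT => (h T hT).ge)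

theorem opn_congr_on (A : ι → Set Ω) (m : ℕ) {f g : Set Ω → ℝ} {S : Set Ω}
    (h : ∀ T ⊆ S, f T = g T) : opn A m f S = opn A m g S :=
  le_antisymm (opn_mono_on A m fun T hT => (h T hT).le)
    (opn_mono_on A m fun T hT => (h T hT).ge)

theorem op_add_fun (A : ι → Set Ω) (f g : Set Ω → ℝ) :
    op A (fun S => f S + g S) = fun S => op A f S + op A g S := by
  funext S; exact avg_add _ _

theorem opn_add_fun (A : ι → Set Ω) (m : ℕ) (f g : Set Ω → ℝ) :
    opn A m (fun S => f S + g S) = fun S => opn A m f S + opn A m g S := by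
  induction m with
  | zero => rfl
  | succ m ih => rw [opn_succ, ih, op_add_fun, opn_succ, opn_succ]

theorem op_sub_fun (A : ι → Set Ω) (f g : Set Ω → ℝ) :
    op A (fun S => f S - g S) = fun S => op A f S - op A g S := by
  funext S; exact avg_sub _ _

theorem opn_sub_fun (A : ι → Set Ω) (m : ℕ) (f g : Set Ω → ℝ) :
    opn A m (fun S => f S - g S) = fun S => opn A m f S - opn A m g S := by
  induction m with
  | zero => rfl
  | succ m ih => rw [opn_succ, ih, op_sub_fun, opn_succ, opn_succ]

theorem op_mul_left (A : ι → Set Ω) (c : ℝ) (f : Set Ω → ℝ) :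
    op A (fun S => c * f S) = fun S => c * op A f S := by
  funext S; exact avg_mul_left _ _

theorem opn_mul_left (A : ι → Set Ω) (m : ℕ) (c : ℝ) (f : Set Ω → ℝ) :
    opn A m (fun S => c * f S) = fun S => c * opn A m f S := by
  induction m with
  | zero => rfl
  | succ m ih => rw [opn_succ, ih, op_mul_left, opn_succ]

theorem op_const [Nonempty ι] (A : ι → Set Ω) (c : ℝ) :
    op A (fun _ => c) = fun _ => c := by
  funext S; exact avg_const c

theorem opn_const [Nonempty ι] (A : ι → Set Ω) (m : ℕ) (c : ℝ) :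
    opn A m (fun _ => c) = fun _ => c := by
  induction m with
  | zero => rfl
  | succ m ih => rw [opn_succ, ih, op_const]

theorem opn_nonneg (A : ι → Set Ω) (m : ℕ) {f : Set Ω → ℝ} (h : ∀ T, 0 ≤ f T) (S : Set Ω) :
    0 ≤ opn A m f S := by
  induction m generalizing S with
  | zero => exact h S
  | succ m ih => rw [opn_succ]; exact avg_nonneg fun _ => ih _

theorem opn_le_of_le [Nonempty ι] (A : ι → Set Ω) (m : ℕ) {f : Set Ω → ℝ} {c : ℝ} {S : Set Ω}
    (h : ∀ T ⊆ S, f T ≤ c) : opn A m f S ≤ c := by
  have := opn_mono_on A m (f := f) (g := fun _ => c) (S := S) h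
  rwa [opn_const] at this

/-- averaging operators commute -/
theorem op_comm (A : ι → Set Ω) (B : κ → Set Ω) (f : Set Ω → ℝ) :
    op A (op B f) = op B (op A f) := by
  funext S
  unfold op
  rw [avg_comm]
  congr 1; funext j; congr 1; funext i
  rw [Set.inter_right_comm]

theorem kap_zero (A : ι → Set Ω) (S : Set Ω) : kap A 0 S = ind S := rfl

theorem kap_succ (A : ι → Set Ω) (m : ℕ) (S : Set Ω) :
    kap A (m + 1) S = avg fun i => kap A m (S ∩ A i) := opn_succ_apply A m ind S

theorem kap_add (A : ι → Set Ω) (a b : ℕ) (S : Set Ω) :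
    kap A (a + b) S = opn A a (kap A b) S := by
  unfold kap; rw [opn_add]

theorem kap_nonneg (A : ι → Set Ω) (m : ℕ) (S : Set Ω) : 0 ≤ kap A m S :=
  opn_nonneg A m ind_nonneg S

theorem kap_le_one [Nonempty ι] (A : ι → Set Ω) (m : ℕ) (S : Set Ω) : kap A m S ≤ 1 :=
  opn_le_of_le A m fun T _ => ind_le_one T

theorem kap_anti (A : ι → Set Ω) (m : ℕ) {S T : Set Ω} (h : S ⊆ T) : kap A m T ≤ kap A m S := by
  induction m generalizing S T with
  | zero => exact ind_anti h
  | succ m ih =>
    rw [kap_succ, kap_succ]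
    exact avg_mono fun i => ih (Set.inter_subset_inter_left _ h)

theorem kap_le_succ [Nonempty ι] (A : ι → Set Ω) (m : ℕ) (S : Set Ω) :
    kap A m S ≤ kap A (m + 1) S := by
  rw [kap_succ]
  exact le_avg_of_le fun i => kap_anti A m Set.inter_subset_left

theorem kap_mono [Nonempty ι] (A : ι → Set Ω) (S : Set Ω) : Monotone fun m => kap A m S :=
  monotone_nat_of_le_succ fun m => kap_le_succ A m S

theorem kap_empty [Nonempty ι] (A : ι → Set Ω) (m : ℕ) : kap A m (∅ : Set Ω) = 1 := by
  refine le_antisymm (kap_le_one A m _) ?_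
  have := kap_mono A (∅ : Set Ω) (Nat.zero_le m)
  simpa [kap_zero, ind_empty] using this

/-- batching: surviving `a + b` constraints implies surviving the first `a` and surviving the last
`b`, which are independent. -/
theorem one_sub_kap_add [Nonempty ι] (A : ι → Set Ω) (a b : ℕ) (S : Set Ω) :
    1 - kap A (a + b) S ≤ (1 - kap A a S) * (1 - kap A b S) := by
  have h1 : 1 - kap A (a + b) S = opn A a (fun T => 1 - kap A b T) S := by
    rw [kap_add, opn_sub_fun, opn_const]
  have h2 : (1 - kap A a S) * (1 - kap A b S)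
      = opn A a (fun T => (1 - kap A b S) * (1 - ind T)) S := by
    rw [opn_mul_left, opn_sub_fun, opn_const]
    unfold kap; ring
  rw [h1, h2]
  refine opn_mono_on A a fun T hT => ?_
  rcases T.eq_empty_or_nonempty with rfl | hT'
  · rw [kap_empty, ind_empty]; norm_num
  · rw [ind_of_nonempty hT']
    have := kap_anti A b hT
    linarith

theorem one_sub_kap_mul [Nonempty ι] (A : ι → Set Ω) (g J : ℕ) (S : Set Ω) :
    1 - kap A (g * J) S ≤ (1 - kap A g S) ^ J := by
  induction J with
  | zero => simp only [mul_zero, pow_zero]; have := kap_nonneg A 0 S; linarith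
  | succ J ih =>
    have h := one_sub_kap_add A (g * J) g S
    have h0 : 0 ≤ 1 - kap A g S := by have := kap_le_one A g S; linarith
    calc 1 - kap A (g * (J + 1)) S = 1 - kap A (g * J + g) S := by rw [mul_add, mul_one]
      _ ≤ (1 - kap A (g * J) S) * (1 - kap A g S) := h
      _ ≤ (1 - kap A g S) ^ J * (1 - kap A g S) := by gcongr
      _ = (1 - kap A g S) ^ (J + 1) := by rw [pow_succ]

/-! ### lazy chain -/

/-- lazy version: with probability `t` add a random constraint, otherwise do nothing -/
noncomputable def lz (A : ι → Set Ω) (t : ℝ) (f : Set Ω → ℝ) : Set Ω → ℝ :=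
  fun S => (1 - t) * f S + t * op A f S

/-- probability that `S` with `r` lazy random constraints is empty -/
noncomputable def lkap (A : ι → Set Ω) (t : ℝ) (r : ℕ) (S : Set Ω) : ℝ :=
  (lz A t)^[r] ind S

theorem lkap_zero (A : ι → Set Ω) (t : ℝ) (S : Set Ω) : lkap A t 0 S = ind S := rfl

theorem lkap_succ (A : ι → Set Ω) (t : ℝ) (r : ℕ) (S : Set Ω) :
    lkap A t (r + 1) S = (1 - t) * lkap A t r S + t * avg fun i => lkap A t r (S ∩ A i) := by
  unfold lkap; rw [Function.iterate_succ']; rfl

theorem lkap_nonneg (A : ι → Set Ω) {t : ℝ} (h0 : 0 ≤ t) (h1 : t ≤ 1) (r : ℕ) (S : Set Ω) :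
    0 ≤ lkap A t r S := by
  induction r generalizing S with
  | zero => exact ind_nonneg S
  | succ r ih =>
    rw [lkap_succ]
    have := ih S
    have h3 : 0 ≤ avg fun i => lkap A t r (S ∩ A i) := avg_nonneg fun i => ih _
    have h4 : 0 ≤ 1 - t := by linarith
    positivity

theorem lkap_le_one [Nonempty ι] (A : ι → Set Ω) {t : ℝ} (h0 : 0 ≤ t) (h1 : t ≤ 1) (r : ℕ)
    (S : Set Ω) : lkap A t r S ≤ 1 := by
  induction r generalizing S with
  | zero => exact ind_le_one S
  | succ r ih =>
    rw [lkap_succ]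
    have h2 := ih S
    have h3 : (avg fun i => lkap A t r (S ∩ A i)) ≤ 1 := avg_le_of_le fun i => ih _
    have h4 : 0 ≤ 1 - t := by linarith
    nlinarith

theorem lkap_anti (A : ι → Set Ω) {t : ℝ} (h0 : 0 ≤ t) (h1 : t ≤ 1) (r : ℕ)
    {S T : Set Ω} (h : S ⊆ T) : lkap A t r T ≤ lkap A t r S := by
  induction r generalizing S T with
  | zero => exact ind_anti h
  | succ r ih =>
    rw [lkap_succ, lkap_succ]
    have h2 := ih h
    have h3 : (avg fun i => lkap A t r (T ∩ A i)) ≤ (avg fun i => lkap A t r (S ∩ A i)) :=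
      avg_mono fun i => ih (Set.inter_subset_inter_left _ h)
    have h4 : 0 ≤ 1 - t := by linarith
    gcongr

theorem lkap_empty [Nonempty ι] (A : ι → Set Ω) (t : ℝ) (r : ℕ) :
    lkap A t r (∅ : Set Ω) = 1 := by
  induction r with
  | zero => rw [lkap_zero, ind_empty]
  | succ r ih =>
    rw [lkap_succ]
    simp only [Set.empty_inter, ih, avg_const]
    ring

end Op

/-! ### random `k`-clauses with independent uniform literals -/

/-- The clause family: a clause is a function `Fin k → V × Bool` (its `k` literals);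
`cl V k D` is the set of assignments satisfying the clause `D`. -/
def cl (V : Type*) (k : ℕ) (D : Fin k → V × Bool) : Set (V → Bool) :=
  {σ | ∃ i, σ (D i).1 = (D i).2}

/-- probability that `M` random `k`-clauses (independent uniform literals) on `n` variables are
unsatisfiable -/
noncomputable def del (k n M : ℕ) : ℝ := kap (cl (Fin n) k) M Set.univ

/-- the set of assignments making the literal `l` true -/
def lt {V : Type*} (l : V × Bool) : Set (V → Bool) := {σ | σ l.1 = l.2}

/-- fraction of dead literals (false under every assignment in `S`) -/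
noncomputable def phi {V : Type*} [Fintype V] (S : Set (V → Bool)) : ℝ :=
  avg fun l : V × Bool => ind (S ∩ lt l)

/-- clauses on `n'` variables embedded in `m` blocks of `n` variables -/
def clE {m n n' : ℕ} (e : Fin n' ↪ Fin m × Fin n) (k : ℕ) (D : Fin k → Fin n' × Bool) :
    Set (Fin m × Fin n → Bool) := {σ | ∃ i, σ (e (D i).1) = (D i).2}

/-- product of block solution sets -/
def prodSet {m n : ℕ} (S : Fin m → Set (Fin n → Bool)) : Set (Fin m × Fin n → Bool) :=
  {σ | ∀ j, (fun w => σ (j, w)) ∈ S j}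

/-- nondoomed kill probability: `kap A 1` restricted to nondoomed sets -/
noncomputable def psi {Ω ι : Type*} [Fintype ι] (A : ι → Set Ω) (N : ℕ) (S : Set Ω) : ℝ := by
  classical exact if kap A N S < 39 / 100 then kap A 1 S else 0

end Vale.Agent.P170
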