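import Vale.Agent.Lib.P170.Op

/-!
# P170: the variance inequality
-/

namespace Vale.Agent.P170

open Finset

section general
variable {Ω : Type*} {ι κ : Type*} [Fintype ι] [Fintype κ]

theorem opn_inter (A : ι → Set Ω) (B : Set Ω) (m : ℕ) (f : Set Ω → ℝ) (S : Set Ω) :
    opn A m f (S ∩ B) = opn A m (fun T => f (T ∩ B)) S := by
  induction m generalizing S with
  | zero => rfl
  | succ m ih =>
    rw [opn_succ_apply, opn_succ_apply]
    congr 1
    funext i
    rw [Set.inter_right_comm, ih]

theorem avg_opn (A : ι → Set Ω) (m : ℕ) (v : κ → Set Ω → ℝ) (S : Set Ω) :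
    avg (fun i => opn A m (v i) S) = opn A m (fun T => avg fun i => v i T) S := by
  induction m generalizing S with
  | zero => rfl
  | succ m ih =>
    rw [opn_succ_apply]
    simp only [opn_succ_apply]
    rw [avg_comm]
    congr 1
    funext i
    exact ih _

theorem kap_one (A : ι → Set Ω) (S : Set Ω) : kap A 1 S = avg fun i => ind (S ∩ A i) :=
  kap_succ A 0 S

/-- `x (1 - x)` of an average -/
theorem mean_var_le [Nonempty ι] (x : ι → ℝ) (a : ℝ) :
    avg x * (1 - avg x) ≤ avg (fun i => x i * (1 - x i)) + avg (fun i => (x i - a) ^ 2) := by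
  have h : avg (fun i => x i * (1 - x i)) + avg (fun i => (x i - a) ^ 2) =
      avg x - 2 * a * avg x + a ^ 2 := by
    rw [← avg_add]
    have e : (fun i => x i * (1 - x i) + (x i - a) ^ 2) =
        fun i => (x i - 2 * a * x i) + a ^ 2 := by
      funext i; ring
    rw [e, avg_add, avg_sub, avg_mul_left, avg_const]
  rw [h]
  nlinarith [sq_nonneg (avg x - a)]

theorem var_step [Nonempty ι] (A : ι → Set Ω) (N : ℕ) {c : ℝ} (m : ℕ)
    (S : Set Ω) (hX : (kap A (m + N) S - kap A m S) / (39 / 100) ≤ c) :
    kap A (m + 1) S * (1 - kap A (m + 1) S) ≤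
      avg (fun i => kap A m (S ∩ A i) * (1 - kap A m (S ∩ A i))) +
        (c * (kap A (m + 1) S - kap A m S) + opn A m (psi A N) S) := by
  classical
  have h1 := mean_var_le (fun i => kap A m (S ∩ A i)) (kap A m S)
  rw [← kap_succ] at h1
  refine h1.trans (add_le_add le_rfl ?_)
  set v : ι → Set Ω → ℝ := fun i T => if kap A N T < 39 / 100 then ind (T ∩ A i) else 0 with hv
  have hv0 : ∀ i T, 0 ≤ v i T := by
    intro i T
    simp only [hv]
    split_ifs
    · exact ind_nonneg _
    · exact le_rfl
  have hpt : ∀ i T, ind (T ∩ A i) ≤ ind T + ((kap A N T - ind T) / (39 / 100) + v i T) := by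
    intro i T
    have hk : ind T ≤ kap A N T := kap_mono A T (Nat.zero_le N)
    rcases T.eq_empty_or_nonempty with rfl | hT
    · have h2 : 0 ≤ (kap A N (∅ : Set Ω) - ind (∅ : Set Ω)) / (39 / 100) :=
        div_nonneg (by linarith) (by norm_num)
      have h3 := hv0 i ∅
      rw [Set.empty_inter]
      linarith
    · rw [ind_of_nonempty hT] at hk ⊢
      by_cases hN : kap A N T < 39 / 100
      · have h2 : v i T = ind (T ∩ A i) := by simp only [hv]; rw [if_pos hN]
        have h3 : 0 ≤ (kap A N T - 0) / (39 / 100) := div_nonneg (by linarith) (by norm_num)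
        rw [h2]; linarith
      · push Not at hN
        have h2 := hv0 i T
        have h3 : 1 ≤ (kap A N T - 0) / (39 / 100) := by
          rw [le_div_iff₀ (by norm_num)]; linarith
        have h4 := ind_le_one (T ∩ A i)
        linarith
  set X := (kap A (m + N) S - kap A m S) / (39 / 100) with hXd
  have hq : ∀ i, kap A m (S ∩ A i) - kap A m S ≤ X + opn A m (v i) S := by
    intro i
    have h2 := opn_mono A m (hpt i) S
    rw [opn_add_fun, opn_add_fun] at h2
    beta_reduce at h2
    have h3 : opn A m (fun T => (kap A N T - ind T) / (39 / 100)) S = X := by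
      have e : (fun T : Set Ω => (kap A N T - ind T) / (39 / 100)) =
          fun T => (100 / 39 : ℝ) * (kap A N T - ind T) := by
        funext T; ring
      rw [e, opn_mul_left, opn_sub_fun, hXd, kap_add]
      unfold kap
      ring
    rw [h3] at h2
    have h4 : opn A m (fun T => ind (T ∩ A i)) S = kap A m (S ∩ A i) := by
      rw [← opn_inter]; rfl
    rw [h4] at h2
    have h5 : opn A m (fun T => ind T) S = kap A m S := rfl
    rw [h5] at h2
    linarith
  have hq0 : ∀ i, 0 ≤ kap A m (S ∩ A i) - kap A m S := fun i =>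
    sub_nonneg.mpr (kap_anti A m Set.inter_subset_left)
  have hq1 : ∀ i, kap A m (S ∩ A i) - kap A m S ≤ 1 := fun i => by
    have := kap_le_one A m (S ∩ A i)
    have := kap_nonneg A m S
    linarith
  have hsq : ∀ i, (kap A m (S ∩ A i) - kap A m S) ^ 2 ≤
      c * (kap A m (S ∩ A i) - kap A m S) + opn A m (v i) S := by
    intro i
    have h2 := hq i
    have h3 := hq0 i
    have h4 := hq1 i
    have h5 : 0 ≤ opn A m (v i) S := opn_nonneg A m (hv0 i) S
    set q := kap A m (S ∩ A i) - kap A m S
    nlinarith
  refine (avg_mono hsq).trans (le_of_eq ?_)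
  rw [avg_add, avg_mul_left, avg_sub, avg_const, ← kap_succ, avg_opn]
  congr 1
  refine opn_congr_on A m fun T _ => ?_
  simp only [hv]
  unfold psi
  split_ifs
  · rw [kap_one]
  · exact avg_const 0

theorem var_ineq [Nonempty ι] (A : ι → Set Ω) (N : ℕ) {c : ℝ} (h0 : 0 < c) (h1 : c ≤ 1) (r : ℕ)
    (S : Set Ω) :
    kap A (r + 1) S * (1 - kap A (r + 1) S) ≤
      c * (r + 1) * (kap A (r + 1) S - kap A r S) + (r + 1) * opn A r (psi A N) S
        + (kap A (r + N) S - kap A r S) / c := by
  have hpsi0 : ∀ T : Set Ω, 0 ≤ psi A N T := by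
    intro T
    unfold psi
    split_ifs
    · exact kap_nonneg A 1 T
    · exact le_rfl
  have key : ∀ (r : ℕ) (S : Set Ω), kap A (r + 1) S * (1 - kap A (r + 1) S) ≤
      c * (r + 1) * (kap A (r + 1) S - kap A r S) + (r + 1) * opn A r (psi A N) S
        + (kap A (r + N) S - kap A r S) / (39 / 100) / (4 * c) := by
    intro r
    -- the easy case
    have easy : ∀ (r : ℕ) (S : Set Ω), c < (kap A (r + N) S - kap A r S) / (39 / 100) →
        kap A (r + 1) S * (1 - kap A (r + 1) S) ≤
        c * (r + 1) * (kap A (r + 1) S - kap A r S) + (r + 1) * opn A r (psi A N) S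
        + (kap A (r + N) S - kap A r S) / (39 / 100) / (4 * c) := by
      intro r S hX
      have h2 : 1 / 4 ≤ (kap A (r + N) S - kap A r S) / (39 / 100) / (4 * c) := by
        rw [le_div_iff₀ (by linarith)]
        linarith
      have h3 : 0 ≤ kap A (r + 1) S - kap A r S := sub_nonneg.mpr (kap_le_succ A r S)
      have h4 : 0 ≤ opn A r (psi A N) S := opn_nonneg A r hpsi0 S
      have h5 : 0 ≤ c * (r + 1) * (kap A (r + 1) S - kap A r S) := by positivity
      have h6 : 0 ≤ (r + 1 : ℝ) * opn A r (psi A N) S := by positivity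
      nlinarith [sq_nonneg (kap A (r + 1) S - 1 / 2)]
    induction r with
    | zero =>
      intro S
      by_cases hX : (kap A (0 + N) S - kap A 0 S) / (39 / 100) ≤ c
      · have h2 := var_step A N 0 S hX
        have h3 : (fun i => kap A 0 (S ∩ A i) * (1 - kap A 0 (S ∩ A i))) = fun _ => (0 : ℝ) := by
          funext i
          rw [kap_zero]
          rcases (S ∩ A i).eq_empty_or_nonempty with h | h
          · rw [h, ind_empty]; ring
          · rw [ind_of_nonempty h]; ring
        rw [h3, avg_const, zero_add] at h2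
        have h4 : 0 ≤ (kap A (0 + N) S - kap A 0 S) / (39 / 100) / (4 * c) :=
          div_nonneg (div_nonneg (sub_nonneg.mpr (kap_mono A S (by omega))) (by norm_num))
            (by linarith)
        push_cast
        linarith
      · push Not at hX
        exact easy 0 S hX
    | succ r ih =>
      intro S
      by_cases hX : (kap A (r + 1 + N) S - kap A (r + 1) S) / (39 / 100) ≤ c
      · have h2 := var_step A N (r + 1) S hX
        have h3 := avg_mono fun i => ih (S ∩ A i)
        have e1 : avg (fun i => c * (r + 1) * (kap A (r + 1) (S ∩ A i) - kap A r (S ∩ A i)) +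
            (r + 1) * opn A r (psi A N) (S ∩ A i) +
            (kap A (r + N) (S ∩ A i) - kap A r (S ∩ A i)) / (39 / 100) / (4 * c)) =
            c * (r + 1) * (kap A (r + 1 + 1) S - kap A (r + 1) S) +
            (r + 1) * opn A (r + 1) (psi A N) S +
            (kap A (r + 1 + N) S - kap A (r + 1) S) / (39 / 100) / (4 * c) := by
          rw [avg_add, avg_add, avg_mul_left, avg_mul_left, avg_div, avg_div, avg_sub, avg_sub,
            ← kap_succ, ← kap_succ, ← kap_succ, ← opn_succ_apply]
          rw [show r + N + 1 = r + 1 + N by ring]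
        rw [e1] at h3
        push_cast
        linarith
      · push Not at hX
        have := easy (r + 1) S hX
        push_cast at this ⊢
        exact this
  refine (key r S).trans (add_le_add le_rfl ?_)
  have h3 : 0 ≤ kap A (r + N) S - kap A r S := sub_nonneg.mpr (kap_mono A S (by omega))
  rw [div_div]
  exact div_le_div_of_nonneg_left h3 h0 (by linarith)

end general

end Vale.Agent.P170
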